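import Mathlib

/-!
# P110: frozen statements for the construction of ultraflat Littlewood polynomials

`ex x = exp (2 π i x)`.  Modules:
* rounding: `RoundStmt`;
* trigonometric block: `BlockStmt`;
* packing: `BlockStmt → TilingStmt`;
* oscillatory integrals: `FresnelStmt`;
* phase design: `FresnelStmt → TilingStmt → SignalStmt`.
-/

open Finset
open scoped ComplexConjugate

namespace Vale.Agent.P110.UF

/-- The additive character `x ↦ exp (2 π i x)`. -/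
noncomputable def ex (x : ℝ) : ℂ := Complex.exp (((2 * Real.pi * x : ℝ) : ℂ) * Complex.I)

/-- Real coefficient polynomial. -/
noncomputable def poly {N : ℕ} (y : Fin N → ℝ) (z : ℂ) : ℂ := ∑ k : Fin N, (y k : ℂ) * z ^ (k : ℕ)

/-- A real vector in the cube close to a vertex in `ℓ¹` can be rounded at small sup-norm cost. -/
def RoundStmt : Prop :=
  ∀ ε : ℝ, 0 < ε → ∃ η : ℝ, 0 < η ∧ ∃ N₀ : ℕ, ∀ N : ℕ, N₀ ≤ N → ∀ y : Fin N → ℝ,
    (∀ k, |y k| ≤ 1) → (∑ k, (1 - |y k|)) ≤ η * N →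
    ∃ x : Fin N → ℝ, (∀ k, x k = 1 ∨ x k = -1) ∧
      ∀ z : ℂ, ‖z‖ = 1 → ‖poly x z - poly y z‖ ≤ ε * Real.sqrt N

/-- A real trigonometric polynomial on a torus, bounded by one, of nearly full energy, all of
whose frequency vectors are primitive. -/
def BlockStmt : Prop :=
  ∀ ε : ℝ, 0 < ε → ∃ (d : ℕ) (S : Finset (Fin d → ℤ)) (c : (Fin d → ℤ) → ℂ),
    (∀ m ∈ S, Finset.univ.gcd m = 1) ∧
    (∀ m ∈ S, -m ∈ S) ∧ (∀ m ∈ S, c (-m) = conj (c m)) ∧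
    (∀ θ : Fin d → ℝ, ‖∑ m ∈ S, c m * ex (∑ i, (m i : ℝ) * θ i)‖ ≤ 1) ∧
    1 - ε ≤ ∑ m ∈ S, ‖c m‖ ^ 2 ∧ (∑ m ∈ S, ‖c m‖ ^ 2) ≤ 1

/-- A tiling of the cells `a < L / 2` of the half circle by intervals `[st, st + len)`.  Each
interval is swept in the time window `win`, upwards (from `st`) or downwards (from `st + len`),
with coefficient `coef`; the bound says that each window carries a signal bounded by `1 + ε`. -/
structure Tiling (ε : ℝ) where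
  L : ℕ
  L_pos : 0 < L
  L_even : 2 ∣ L
  J : ℕ
  I : ℕ
  dur : Fin J → ℝ
  st : Fin I → ℕ
  len : Fin I → ℕ
  up : Fin I → Bool
  win : Fin I → Fin J
  coef : Fin I → ℂ
  dur_pos : ∀ j, 0 < dur j
  dur_sum : ∑ j, dur j ≤ 1 + ε
  len_pos : ∀ i, 0 < len i
  inside : ∀ i, 2 * (st i + len i) ≤ L
  cover : ∀ a : ℕ, 2 * a < L → ∃! i, st i ≤ a ∧ a < st i + len i
  weight : ∀ i, (len i : ℝ) = dur (win i) * L * ‖coef i‖ ^ 2
  bound : ∀ j, ∀ k : ℤ, ∀ u : ℝ,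
    |2 * (∑ i ∈ univ.filter (fun i => win i = j),
      coef i * ex ((if up i then (st i : ℝ) * k + len i * u
        else ((st i + len i : ℕ) : ℝ) * k - len i * u) / L)).re| ≤ 1 + ε

/-- Tilings exist for every tolerance. -/
def TilingStmt : Prop := ∀ ε : ℝ, 0 < ε → Nonempty (Tiling ε)

/-- The integral of a chirp. -/
noncomputable def chirp (σ a b : ℝ) : ℂ := ∫ x in a..b, ex (σ * x ^ 2 / 2)

/-- The full chirp integral, normalised. -/
noncomputable def kappa (σ : ℝ) : ℂ := ex (if 0 < σ then 1 / 8 else -(1 / 8))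

/-- Uniform bounds for chirp integrals. -/
def FresnelStmt : Prop :=
  ∃ C : ℝ, 0 < C ∧ ∀ σ : ℝ, σ ≠ 0 →
    (∀ a b : ℝ, ‖chirp σ a b‖ ≤ C / Real.sqrt |σ|) ∧
    (∀ R a b : ℝ, 0 < R → R ≤ a → R ≤ b → ‖chirp σ a b‖ ≤ C / (|σ| * R)) ∧
    (∀ R a b : ℝ, 0 < R → a ≤ -R → b ≤ -R → ‖chirp σ a b‖ ≤ C / (|σ| * R)) ∧
    (∀ R a b : ℝ, 0 < R → a ≤ -R → R ≤ b →
      ‖chirp σ a b - kappa σ / (Real.sqrt |σ| : ℝ)‖ ≤ C / (|σ| * R))

/-- Fractional ultraflat vectors of every large length. -/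
def SignalStmt : Prop :=
  ∀ η : ℝ, 0 < η → ∃ N₀ : ℕ, ∀ N : ℕ, N₀ ≤ N → ∃ y : Fin N → ℝ,
    (∀ k, |y k| ≤ 1) ∧ (∑ k, (1 - |y k|)) ≤ η * N ∧
    ∀ z : ℂ, ‖z‖ = 1 → |‖poly y z‖ - Real.sqrt N| ≤ η * Real.sqrt N

/-- Ultraflat real Littlewood polynomials of every large length. -/
def UltraflatStmt : Prop :=
  ∀ c : ℝ, 0 < c → ∃ N₀ : ℕ, ∀ N : ℕ, N₀ ≤ N → ∃ x : Fin N → ℝ,
    (∀ k, x k = 1 ∨ x k = -1) ∧
    ∀ z : ℂ, ‖z‖ = 1 →
      (1 - c) * Real.sqrt N ≤ ‖poly x z‖ ∧ ‖poly x z‖ ≤ (1 + c) * Real.sqrt N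

/-- Rounding a fractional ultraflat vector gives an ultraflat Littlewood polynomial. -/
theorem ultraflat_of (hR : RoundStmt) (hS : SignalStmt) : UltraflatStmt := by
  intro c hc
  obtain ⟨η, hη, N₁, hN₁⟩ := hR (c / 2) (by linarith)
  obtain ⟨N₂, hN₂⟩ := hS (min η (c / 2)) (lt_min hη (by linarith))
  refine ⟨max N₁ N₂, fun N hN => ?_⟩
  obtain ⟨y, hy, hdef, hflat⟩ := hN₂ N (le_trans (le_max_right _ _) hN)
  obtain ⟨x, hx, hxy⟩ := hN₁ N (le_trans (le_max_left _ _) hN) y hy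
    (hdef.trans (mul_le_mul_of_nonneg_right (min_le_left _ _) (Nat.cast_nonneg _)))
  refine ⟨x, hx, fun z hz => ?_⟩
  have h1 := abs_le.1 ((hflat z hz).trans
    (mul_le_mul_of_nonneg_right (min_le_right η (c / 2)) (Real.sqrt_nonneg _)))
  have h2 := abs_le.1 ((abs_norm_sub_norm_le (poly x z) (poly y z)).trans (hxy z hz))
  constructor <;> linarith [h1.1, h1.2, h2.1, h2.2]

end Vale.Agent.P110.UF
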