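import Mathlib
import Vale.Agent.P110.UF.Defs

/-!
# P110: a bounded square wave polynomial with small torsion averages

On the grid of `2 H` points take the square pattern, and average it against the Fejer kernel of
degree `N`.  For `k ∣ 2 H` the part of the result with frequencies divisible by `k` is at most
`1 / k` in modulus and `1 / k ^ 2` in energy.
-/

open Finset
open scoped ComplexConjugate

namespace Vale.Agent.P110.UF.Block

theorem ex_zero : ex 0 = 1 := by simp [ex]

theorem ex_add (x y : ℝ) : ex (x + y) = ex x * ex y := by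
  rw [ex, ex, ex, ← Complex.exp_add]
  push_cast
  ring_nf

theorem ex_nat_mul (n : ℕ) (x : ℝ) : ex (n * x) = ex x ^ n := by
  rw [ex, ex, ← Complex.exp_nat_mul]
  push_cast
  ring_nf

theorem ex_int (n : ℤ) : ex n = 1 := by
  rw [ex, Complex.exp_eq_one_iff]
  exact ⟨n, by push_cast; ring⟩

theorem conj_ex (x : ℝ) : conj (ex x) = ex (-x) := by
  rw [ex, ex, ← Complex.exp_conj, map_mul, Complex.conj_ofReal, Complex.conj_I]
  push_cast
  ring_nf

theorem ex_sum {ι : Type*} (s : Finset ι) (f : ι → ℝ) :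
    ex (∑ i ∈ s, f i) = ∏ i ∈ s, ex (f i) := by
  classical
  induction s using Finset.induction_on with
  | empty => simp [ex_zero]
  | insert a t ha ih => rw [sum_insert ha, prod_insert ha, ex_add, ih]

theorem sum_ex {M : ℕ} (hM : 0 < M) (l : ℤ) :
    ∑ i ∈ range M, ex ((i : ℝ) * ((l : ℝ) / M)) = if (M : ℤ) ∣ l then (M : ℂ) else 0 := by
  have hM0 : (M : ℝ) ≠ 0 := by exact_mod_cast hM.ne'
  simp only [ex_nat_mul]
  split
  · rename_i h
    obtain ⟨t, rfl⟩ := h
    have h1 : ((M * t : ℤ) : ℝ) / M = ((t : ℤ) : ℝ) := by push_cast; field_simp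
    rw [h1, ex_int]
    simp
  · rename_i h
    refine geom_sum_eq (x := ex ((l : ℝ) / M)) (fun hx => h ?_) M |>.trans ?_
    · rw [ex, Complex.exp_eq_one_iff] at hx
      obtain ⟨t, ht⟩ := hx
      have h2 : ((2 * Real.pi * ((l : ℝ) / M) : ℝ) : ℂ) * Complex.I =
          ((2 * Real.pi * (t : ℝ) : ℝ) : ℂ) * Complex.I := by rw [ht]; push_cast; ring
      have h3 := Complex.ofReal_injective (mul_right_cancel₀ Complex.I_ne_zero h2)
      have h4 : (l : ℝ) / M = t := mul_left_cancel₀ (by positivity) h3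
      rw [div_eq_iff hM0] at h4
      exact ⟨t, by exact_mod_cast h4.trans (mul_comm _ _)⟩
    · rw [← ex_nat_mul, mul_div_cancel₀ _ hM0, ex_int, sub_self, zero_div]

/-- Bessel's inequality on the grid of `M` points. -/
theorem bessel {M : ℕ} (hM : 0 < M) (u : ℕ → ℂ) (J : Finset ℤ)
    (hJ : ∀ a ∈ J, ∀ b ∈ J, (M : ℤ) ∣ a - b → a = b) :
    ∑ j ∈ J, ‖(∑ i ∈ range M, u i * ex (-((i : ℝ) * ((j : ℝ) / M)))) / (M : ℂ)‖ ^ 2 ≤
      (∑ i ∈ range M, ‖u i‖ ^ 2) / M := by
  set a : ℤ → ℂ := fun j => (∑ i ∈ range M, u i * ex (-((i : ℝ) * ((j : ℝ) / M)))) / (M : ℂ)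
    with ha
  set P : ℕ → ℂ := fun i => ∑ j ∈ J, a j * ex ((i : ℝ) * ((j : ℝ) / M)) with hP
  set A : ℂ := ∑ j ∈ J, conj (a j) * a j with hA
  have hMc : (M : ℂ) ≠ 0 := by exact_mod_cast hM.ne'
  have h1 : ∑ i ∈ range M, u i * conj (P i) = M * A := by
    simp only [hP, map_sum, map_mul, conj_ex, mul_sum]
    rw [sum_comm, hA, mul_sum]
    refine sum_congr rfl fun j _ => ?_
    calc ∑ i ∈ range M, u i * (conj (a j) * ex (-((i : ℝ) * ((j : ℝ) / M))))
        = conj (a j) * ∑ i ∈ range M, u i * ex (-((i : ℝ) * ((j : ℝ) / M))) := by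
          rw [mul_sum]; exact sum_congr rfl fun i _ => by ring
      _ = conj (a j) * (M * a j) := by
          congr 1; simp only [ha]; rw [mul_div_cancel₀ _ hMc]
      _ = M * (conj (a j) * a j) := by ring
  have h2 : ∑ i ∈ range M, P i * conj (P i) = M * A := by
    simp only [hP, map_sum, map_mul, conj_ex, sum_mul_sum]
    rw [sum_comm, hA, mul_sum]
    refine sum_congr rfl fun j hj => ?_
    rw [sum_comm, sum_eq_single j]
    · calc ∑ i ∈ range M, a j * ex ((i : ℝ) * ((j : ℝ) / M)) *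
            (conj (a j) * ex (-((i : ℝ) * ((j : ℝ) / M))))
          = ∑ _i ∈ range M, conj (a j) * a j := sum_congr rfl fun i _ => by
            rw [show ∀ x y z w : ℂ, x * y * (z * w) = z * x * (y * w) from fun _ _ _ _ => by ring,
              ← ex_add, add_neg_cancel, ex_zero, mul_one]
        _ = M * (conj (a j) * a j) := by simp
    · intro b hb hbj
      have : ∀ i : ℕ, a j * ex ((i : ℝ) * ((j : ℝ) / M)) *
          (conj (a b) * ex (-((i : ℝ) * ((b : ℝ) / M)))) =
          a j * conj (a b) * ex ((i : ℝ) * (((j - b : ℤ) : ℝ) / M)) := fun i => by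
        rw [show ∀ x y z w : ℂ, x * y * (z * w) = x * z * (y * w) from fun _ _ _ _ => by ring,
          ← ex_add]
        push_cast
        ring_nf
      simp only [this, ← mul_sum, sum_ex hM]
      rw [if_neg fun h => hbj (hJ j hj b hb h).symm, mul_zero]
    · exact fun h => absurd hj h
  have hAre : A = ((∑ j ∈ J, ‖a j‖ ^ 2 : ℝ) : ℂ) := by
    rw [hA]
    push_cast
    exact sum_congr rfl fun j _ => Complex.conj_mul' (a j)
  have h3 : (∑ i ∈ range M, ‖u i - P i‖ ^ 2 : ℝ) =
      (∑ i ∈ range M, ‖u i‖ ^ 2) - M * ∑ j ∈ J, ‖a j‖ ^ 2 := by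
    apply Complex.ofReal_injective
    push_cast
    simp only [← Complex.conj_mul', map_sub, sub_mul, mul_sub, sum_sub_distrib]
    have h4 : ∑ i ∈ range M, conj (u i) * P i = conj (∑ i ∈ range M, u i * conj (P i)) := by
      simp [map_sum, map_mul]
    have h5 : conj A = A := by rw [hAre, Complex.conj_ofReal]
    have h6 : ∑ i ∈ range M, conj (P i) * u i = M * A := by simp only [mul_comm (conj _), h1]
    have h7 : ∑ i ∈ range M, conj (P i) * P i = M * A := by simp only [mul_comm (conj _), h2]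
    rw [h4, h1, h6, h7, map_mul, h5, Complex.conj_natCast]
    rw [hA]
    ring
  have h0 : 0 ≤ ∑ i ∈ range M, ‖u i - P i‖ ^ 2 := sum_nonneg fun i _ => sq_nonneg _
  rw [le_div_iff₀ (by exact_mod_cast hM), mul_comm]
  linarith

/-- The square pattern. -/
def sq' (H i : ℕ) : ℂ := if i < H then 1 else -1

theorem sum_block {α : Type*} [AddCommMonoid α] (u : ℕ → α) (k q : ℕ) :
    ∑ i ∈ range (k * q), u i = ∑ r ∈ range q, ∑ l ∈ range k, u (r + l * q) := by
  induction k with
  | zero => simp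
  | succ k ih =>
    rw [add_mul, one_mul, sum_range_add, ih]
    simp only [sum_range_succ, sum_add_distrib, add_comm (k * q)]

theorem sq'_avg {H k q r : ℕ} (h : k * q = 2 * H) (hr : r < q) :
    ‖∑ l ∈ range k, sq' H (r + l * q)‖ ≤ 1 := by
  set s := (range k).filter fun l => r + l * q < H with hs
  have e : ∑ l ∈ range k, sq' H (r + l * q) = ((2 * (s.card : ℝ) - k : ℝ) : ℂ) := by
    have hc := Finset.card_filter_add_card_filter_not (s := range k) fun l => r + l * q < H
    simp only [sq', sum_ite, sum_const, nsmul_eq_mul, ← hs, card_range] at hc ⊢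
    have hc' : (s.card : ℂ) + (((range k).filter fun l => ¬r + l * q < H).card : ℂ) = (k : ℂ) := by
      exact_mod_cast hc
    push_cast
    linear_combination -hc'
  have up : s ⊆ range ((k + 1) / 2) := by
    intro l hl
    rw [hs, mem_filter] at hl
    rw [mem_range]
    by_contra hc
    have : k * q ≤ 2 * l * q := Nat.mul_le_mul_right q (by omega)
    rw [mul_assoc] at this
    omega
  have dn : range (k / 2) ⊆ s := by
    intro l hl
    rw [mem_range] at hl
    rw [hs, mem_filter, mem_range]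
    refine ⟨by omega, ?_⟩
    have : 2 * (l + 1) * q ≤ k * q := Nat.mul_le_mul_right q (by omega)
    rw [mul_assoc, add_mul, one_mul] at this
    omega
  have h1 := card_le_card up
  have h2 := card_le_card dn
  rw [card_range] at h1 h2
  rw [e, Complex.norm_real, Real.norm_eq_abs, abs_le]
  have a1 : ((2 * s.card : ℕ) : ℝ) ≤ ((k + 1 : ℕ) : ℝ) := by exact_mod_cast (by omega : _ ≤ _)
  have a2 : ((k : ℕ) : ℝ) ≤ ((2 * s.card + 1 : ℕ) : ℝ) := by exact_mod_cast (by omega : _ ≤ _)
  push_cast at a1 a2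
  constructor <;> linarith

/-- The frequencies of degree below `N`. -/
noncomputable def freq (N : ℕ) : Finset ℤ := Ioo (-(N : ℤ)) N

/-- The Fejer weight, as a number of pairs. -/
def pairs (N : ℕ) (j : ℤ) : Finset (ℕ × ℕ) :=
  (range N ×ˢ range N).filter fun p => (p.1 : ℤ) - p.2 = j

/-- Discrete Fourier coefficient of the square pattern on the grid of `2 H` points. -/
noncomputable def wave (H : ℕ) (j : ℤ) : ℂ :=
  (∑ i ∈ range (2 * H), sq' H i * ex (-((i : ℝ) * ((j : ℝ) / (2 * H : ℕ))))) / ((2 * H : ℕ) : ℂ)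

/-- Coefficient of the bounded square wave polynomial. -/
noncomputable def coef (N H : ℕ) (j : ℤ) : ℂ := (((pairs N j).card : ℂ) / N) * wave H j

/-- The kernel restricted to frequencies divisible by `k`. -/
noncomputable def ker (N k : ℕ) (x : ℝ) : ℂ :=
  ∑ p ∈ (range N ×ˢ range N).filter (fun p => (k : ℤ) ∣ (p.1 : ℤ) - p.2),
    ex ((((p.1 : ℤ) - p.2 : ℤ) : ℝ) * x)

theorem ker_eq (N k : ℕ) (hk : 0 < k) (x : ℝ) :
    ker N k x = ((∑ r ∈ range k,
      ‖∑ a ∈ (range N).filter (fun a => a % k = r), ex ((a : ℝ) * x)‖ ^ 2 : ℝ) : ℂ) := by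
  push_cast
  simp only [← Complex.conj_mul', map_sum, conj_ex, sum_mul_sum]
  have e : ∀ a b : ℕ, ex (-((b : ℝ) * x)) * ex ((a : ℝ) * x) =
      ex ((((a : ℤ) - b : ℤ) : ℝ) * x) := fun a b => by
    rw [← ex_add]; push_cast; ring_nf
  simp only [e, sum_filter]
  rw [ker, sum_filter, sum_product, sum_comm]
  rw [sum_comm (s := range k)]
  refine sum_congr rfl fun b _ => ?_
  symm
  rw [sum_eq_single (b % k)]
  · rw [if_pos rfl]
    refine sum_congr rfl fun a _ => ?_
    have : (k : ℤ) ∣ (a : ℤ) - b ↔ a % k = b % k := by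
      rw [← Int.natCast_inj (m := a % k), Int.natCast_emod, Int.natCast_emod,
        Int.emod_eq_emod_iff_emod_sub_eq_zero, Int.dvd_iff_emod_eq_zero]
    simp only [this]
  · intro r _ hr
    rw [if_neg (Ne.symm hr)]
  · intro h
    exact absurd (mem_range.2 (Nat.mod_lt b hk)) h

theorem ker_periodic {N k q M : ℕ} (h : k * q = M) (hM : 0 < M) (x : ℝ) (l : ℕ) :
    ker N k (x - ((l * q : ℕ) : ℝ) / M) = ker N k x := by
  refine sum_congr rfl fun p hp => ?_
  obtain ⟨t, ht⟩ := (mem_filter.1 hp).2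
  have hM0 : (M : ℝ) ≠ 0 := by exact_mod_cast hM.ne'
  have e : (((p.1 : ℤ) - p.2 : ℤ) : ℝ) * (x - ((l * q : ℕ) : ℝ) / M) =
      (((p.1 : ℤ) - p.2 : ℤ) : ℝ) * x + ((-(t * l) : ℤ) : ℝ) := by
    rw [ht]
    have hk : (k : ℝ) * q = M := by exact_mod_cast h
    push_cast
    field_simp
    rw [← hk]
    ring
  rw [e, ex_add, ex_int, mul_one]

theorem ker_mean {N k M : ℕ} (hM : 0 < M) (hNM : N ≤ M) (x : ℝ) :
    ∑ i ∈ range M, ker N k (x - (i : ℝ) / M) = (N * M : ℂ) := by
  simp only [ker]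
  rw [sum_comm]
  have e : ∀ p : ℕ × ℕ, ∑ i ∈ range M, ex ((((p.1 : ℤ) - p.2 : ℤ) : ℝ) * (x - (i : ℝ) / M)) =
      ex ((((p.1 : ℤ) - p.2 : ℤ) : ℝ) * x) *
        if (M : ℤ) ∣ (p.2 : ℤ) - p.1 then (M : ℂ) else 0 := fun p => by
    rw [← sum_ex hM, mul_sum]
    refine sum_congr rfl fun i _ => ?_
    rw [← ex_add]
    push_cast
    ring_nf
  rw [sum_congr rfl fun p _ => e p]
  have hd : ∀ p ∈ (range N ×ˢ range N).filter (fun p => (k : ℤ) ∣ (p.1 : ℤ) - p.2),
      ((M : ℤ) ∣ (p.2 : ℤ) - p.1 ↔ p.1 = p.2) := by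
    intro p hp
    simp only [mem_filter, mem_product, mem_range] at hp
    refine ⟨fun hdv => ?_, fun he => by simp [he]⟩
    by_contra hne
    have := Int.le_of_dvd (abs_pos.2 (by omega : (p.2 : ℤ) - p.1 ≠ 0)) ((dvd_abs _ _).2 hdv)
    rcases abs_cases ((p.2 : ℤ) - p.1) with h | h <;> omega
  calc _ = ∑ p ∈ (range N ×ˢ range N).filter (fun p => (k : ℤ) ∣ (p.1 : ℤ) - p.2),
        if p.1 = p.2 then (M : ℂ) else 0 := by
        refine sum_congr rfl fun p hp => ?_
        by_cases he : p.1 = p.2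
        · simp [(hd p hp), he, ex_zero]
        · rw [if_neg fun h => he ((hd p hp).1 h), if_neg he, mul_zero]
    _ = _ := by
        rw [sum_filter, sum_product]
        have : ∀ a ∈ range N, (∑ b ∈ range N, if (k : ℤ) ∣ (a : ℤ) - b then
            (if a = b then (M : ℂ) else 0) else 0) = (M : ℂ) := fun a ha => by
          rw [sum_eq_single a]
          · simp
          · intro b _ hb
            simp [Ne.symm hb]
          · exact fun h => absurd ha h
        rw [sum_congr rfl this]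
        simp

/-- The part with frequencies divisible by `k` is at most `1 / k`. -/
theorem part_le {N H k : ℕ} (hN : 0 < N) (hNM : N ≤ 2 * H) (hk : 0 < k) (hdvd : k ∣ 2 * H)
    (θ : ℝ) :
    ‖∑ j ∈ (freq N).filter (fun j => (k : ℤ) ∣ j), coef N H j * ex ((j : ℝ) * θ)‖ ≤ 1 / k := by
  obtain ⟨q, hq⟩ := hdvd
  set M := 2 * H with hMdef
  have hM : 0 < M := by omega
  have hMc : (M : ℂ) ≠ 0 := by exact_mod_cast hM.ne'
  have hNc : (N : ℂ) ≠ 0 := by exact_mod_cast hN.ne'
  have e1 : ∑ j ∈ (freq N).filter (fun j => (k : ℤ) ∣ j), coef N H j * ex ((j : ℝ) * θ) =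
      (∑ r ∈ range q, (∑ l ∈ range k, sq' H (r + l * q)) * ker N k (θ - (r : ℝ) / M)) /
        (N * M : ℂ) := by
    rw [eq_div_iff (mul_ne_zero hNc hMc)]
    calc (∑ j ∈ (freq N).filter (fun j => (k : ℤ) ∣ j), coef N H j * ex ((j : ℝ) * θ)) * (N * M)
        = ∑ j ∈ (freq N).filter (fun j => (k : ℤ) ∣ j), ∑ p ∈ pairs N j, ∑ i ∈ range M,
            sq' H i * ex ((((p.1 : ℤ) - p.2 : ℤ) : ℝ) * (θ - (i : ℝ) / M)) := by
          rw [sum_mul]
          refine sum_congr rfl fun j _ => ?_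
          have : ∀ p ∈ pairs N j, ∑ i ∈ range M,
              sq' H i * ex ((((p.1 : ℤ) - p.2 : ℤ) : ℝ) * (θ - (i : ℝ) / M)) =
              wave H j * M * ex ((j : ℝ) * θ) := by
            intro p hp
            rw [(mem_filter.1 hp).2, wave, ← hMdef, div_mul_cancel₀ _ hMc, sum_mul]
            refine sum_congr rfl fun i _ => ?_
            rw [mul_assoc, ← ex_add]
            ring_nf
          rw [sum_congr rfl this, sum_const, nsmul_eq_mul, coef]
          field_simp
      _ = ∑ p ∈ (range N ×ˢ range N).filter (fun p => (k : ℤ) ∣ (p.1 : ℤ) - p.2), ∑ i ∈ range M,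
            sq' H i * ex ((((p.1 : ℤ) - p.2 : ℤ) : ℝ) * (θ - (i : ℝ) / M)) := by
          rw [sum_filter]
          rw [sum_filter (s := range N ×ˢ range N)]
          rw [← sum_fiberwise_of_maps_to (t := freq N)
            (g := fun p : ℕ × ℕ => (p.1 : ℤ) - p.2)]
          · refine sum_congr rfl fun j _ => ?_
            by_cases h : (k : ℤ) ∣ j
            · rw [if_pos h]
              exact sum_congr rfl fun p hp => (if_pos ((mem_filter.1 hp).2 ▸ h)).symm
            · rw [if_neg h]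
              exact (sum_eq_zero fun p hp => if_neg ((mem_filter.1 hp).2 ▸ h)).symm
          · intro p hp
            simp only [mem_product, mem_range] at hp
            simp only [freq, mem_Ioo]
            omega
      _ = ∑ i ∈ range M, sq' H i * ker N k (θ - (i : ℝ) / M) := by
          rw [sum_comm]
          simp only [ker, mul_sum]
      _ = ∑ r ∈ range q, (∑ l ∈ range k, sq' H (r + l * q)) * ker N k (θ - (r : ℝ) / M) := by
          rw [show range M = range (k * q) by rw [← hq], sum_block]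
          refine sum_congr rfl fun r _ => ?_
          rw [sum_mul]
          refine sum_congr rfl fun l _ => ?_
          congr 1
          rw [show θ - ((r + l * q : ℕ) : ℝ) / M = (θ - (r : ℝ) / M) - ((l * q : ℕ) : ℝ) / M by
            push_cast; ring, ker_periodic hq.symm hM]
  have e2 : ∑ r ∈ range q, ker N k (θ - (r : ℝ) / M) = ((N * M : ℝ) / k : ℝ) := by
    have h := ker_mean (k := k) hM hNM θ
    rw [show range M = range (k * q) by rw [← hq], sum_block] at h
    have : ∀ r ∈ range q, ∑ l ∈ range k, ker N k (θ - ((r + l * q : ℕ) : ℝ) / M) =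
        (k : ℂ) * ker N k (θ - (r : ℝ) / M) := fun r _ => by
      rw [sum_congr rfl fun l _ => show ker N k (θ - ((r + l * q : ℕ) : ℝ) / M) =
        ker N k (θ - (r : ℝ) / M) by
          rw [show θ - ((r + l * q : ℕ) : ℝ) / M = (θ - (r : ℝ) / M) - ((l * q : ℕ) : ℝ) / M by
            push_cast; ring, ker_periodic hq.symm hM]]
      simp
    rw [sum_congr rfl this, ← mul_sum] at h
    push_cast
    rw [eq_div_iff (by exact_mod_cast hk.ne'), mul_comm, h]
  rw [e1, norm_div]
  have e3 : ‖(N * M : ℂ)‖ = (N * M : ℝ) := by simp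
  rw [e3, div_le_iff₀ (by positivity)]
  calc _ ≤ ∑ r ∈ range q, (ker N k (θ - (r : ℝ) / M)).re := by
        refine (norm_sum_le _ _).trans (sum_le_sum fun r hr => ?_)
        rw [norm_mul]
        refine le_trans (mul_le_mul_of_nonneg_right (sq'_avg hq.symm (mem_range.1 hr))
          (norm_nonneg _)) (le_of_eq ?_)
        rw [one_mul, ker_eq N k hk, Complex.norm_real, Complex.ofReal_re,
          Real.norm_of_nonneg (sum_nonneg fun _ _ => sq_nonneg _)]
    _ = (N * M : ℝ) / k := by rw [← Complex.re_sum, e2, Complex.ofReal_re]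
    _ = _ := by ring

theorem pairs_card_le (N : ℕ) (j : ℤ) : (pairs N j).card ≤ N := by
  refine (card_le_card_of_injOn Prod.fst ?_ ?_).trans (card_range N).le
  · intro p hp
    simp only [pairs, mem_coe, mem_filter, mem_product] at hp
    exact mem_coe.2 hp.1.1
  · intro p hp p' hp' h
    simp only [pairs, mem_coe, mem_filter, mem_product] at hp hp'
    exact Prod.ext h (by omega)

theorem pairs_card_ge (N j : ℕ) : N - j ≤ (pairs N j).card := by
  refine (card_range (N - j)).symm.le.trans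
    (card_le_card_of_injOn (fun b => (b + j, b)) ?_ ?_)
  · intro b hb
    simp only [coe_range, Set.mem_Iio] at hb
    simp only [pairs, mem_coe, mem_filter, mem_product, mem_range]
    exact ⟨⟨by omega, by omega⟩, by omega⟩
  · exact fun a _ b _ h => (Prod.ext_iff.1 h).2

theorem pairs_neg (N : ℕ) (j : ℤ) : (pairs N (-j)).card = (pairs N j).card := by
  refine card_nbij' Prod.swap Prod.swap ?_ ?_ ?_ ?_ <;> intro p hp <;>
    simp [pairs] at hp ⊢ <;> omega

theorem coef_conj (N H : ℕ) (j : ℤ) : coef N H (-j) = conj (coef N H j) := by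
  rw [coef, coef, pairs_neg, map_mul, map_div₀, Complex.conj_natCast, Complex.conj_natCast]
  congr 1
  rw [wave, wave, map_div₀, Complex.conj_natCast, map_sum]
  congr 1
  refine sum_congr rfl fun i _ => ?_
  rw [map_mul, conj_ex]
  congr 1
  · unfold sq'; split <;> simp
  · push_cast; ring_nf

theorem coef_zero (N : ℕ) (H : ℕ) : coef N H 0 = 0 := by
  have : wave H 0 = 0 := by
    simp only [wave, Int.cast_zero, zero_div, mul_zero, neg_zero, ex_zero, mul_one]
    rw [two_mul, sum_range_add]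
    simp [sq', sum_ite_of_true]
  rw [coef, this, mul_zero]

/-- Energy of the part with frequencies divisible by `k`. -/
theorem energy_le {N H k : ℕ} (hN : 0 < N) (hNM : 2 * N ≤ 2 * H) (hdvd : k ∣ 2 * H) :
    ∑ j ∈ (freq N).filter (fun j => (k : ℤ) ∣ j), ‖coef N H j‖ ^ 2 ≤ 1 / (k : ℝ) ^ 2 := by
  obtain ⟨q, hq⟩ := hdvd
  have hM : 0 < 2 * H := by omega
  have hk : 0 < k := Nat.pos_of_mul_pos_right (hq ▸ hM)
  have hk' : (k : ℂ) ≠ 0 := by exact_mod_cast hk.ne'
  set u : ℕ → ℂ := fun i => (∑ l ∈ range k, sq' H (i % q + l * q)) / k with hu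
  have hM0 : ((2 * H : ℕ) : ℝ) ≠ 0 := by exact_mod_cast hM.ne'
  refine le_trans (b := ∑ j ∈ (freq N).filter (fun j => (k : ℤ) ∣ j), ‖(∑ i ∈ range (2 * H),
    u i * ex (-((i : ℝ) * ((j : ℝ) / (2 * H : ℕ))))) / ((2 * H : ℕ) : ℂ)‖ ^ 2)
    (sum_le_sum fun j hj => ?_) ?_
  · obtain ⟨t, ht⟩ := (mem_filter.1 hj).2
    have hw : wave H j = (∑ i ∈ range (2 * H),
        u i * ex (-((i : ℝ) * ((j : ℝ) / (2 * H : ℕ))))) / ((2 * H : ℕ) : ℂ) := by
      rw [wave]
      congr 1
      rw [show range (2 * H) = range (k * q) by rw [← hq], sum_block, sum_block]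
      refine sum_congr rfl fun r hr => ?_
      have hper : ∀ l : ℕ, ex (-(((r + l * q : ℕ) : ℝ) * ((j : ℝ) / (2 * H : ℕ)))) =
          ex (-((r : ℝ) * ((j : ℝ) / (2 * H : ℕ)))) := fun l => by
        have e : -(((r + l * q : ℕ) : ℝ) * ((j : ℝ) / (2 * H : ℕ))) =
            -((r : ℝ) * ((j : ℝ) / (2 * H : ℕ))) + ((-(l * t) : ℤ) : ℝ) := by
          have hk : ((2 * H : ℕ) : ℝ) = (k : ℝ) * q := by exact_mod_cast hq
          have hkr : (k : ℝ) ≠ 0 := by rintro h0; apply hM0; rw [hk, h0, zero_mul]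
          have hqr : (q : ℝ) ≠ 0 := by rintro h0; apply hM0; rw [hk, h0, mul_zero]
          rw [ht, hk]
          push_cast
          field_simp
          ring
        rw [e, ex_add, ex_int, mul_one]
      have hu' : ∀ l : ℕ, u (r + l * q) = (∑ l ∈ range k, sq' H (r + l * q)) / k := fun l => by
        simp only [hu, Nat.add_mul_mod_self_right, Nat.mod_eq_of_lt (mem_range.1 hr)]
      simp only [hper, hu', ← sum_mul, sum_const, card_range, nsmul_eq_mul]
      rw [mul_div_cancel₀ _ hk']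
    rw [coef, norm_mul, ← hw]
    refine pow_le_pow_left₀ (by positivity) (mul_le_of_le_one_left (norm_nonneg _) ?_) 2
    rw [norm_div, Complex.norm_natCast, Complex.norm_natCast, div_le_one (by exact_mod_cast hN)]
    exact_mod_cast pairs_card_le N j
  · refine (bessel hM u _ ?_).trans ?_
    · intro a ha b hb hd
      simp only [freq, mem_filter, mem_Ioo] at ha hb
      by_contra hne
      have := Int.le_of_dvd (abs_pos.2 (sub_ne_zero.2 hne)) ((dvd_abs _ _).2 hd)
      rcases abs_cases (a - b) with h | h <;> omega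
    · rw [div_le_iff₀ (by exact_mod_cast hM)]
      refine (sum_le_card_nsmul _ _ (1 / (k : ℝ) ^ 2) fun i _ => ?_).trans (le_of_eq ?_)
      · simp only [hu, norm_div, Complex.norm_natCast, div_pow]
        gcongr
        have hq0 : 0 < q := Nat.pos_of_mul_pos_left (hq ▸ hM)
        exact pow_le_one₀ (norm_nonneg _) (sq'_avg hq.symm (Nat.mod_lt i hq0))
      · rw [card_range, nsmul_eq_mul, mul_comm]

/-- Lower bound for the odd coefficients. -/
theorem coef_ge {N H : ℕ} (hN : 0 < N) (hH : 0 < H) (j : ℕ) (hj : Odd j) :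
    (1 - (j : ℝ) / N) * (2 / (Real.pi * j)) ≤ ‖coef N H j‖ := by
  obtain ⟨t, ht⟩ := hj
  set ω := ex (-((j : ℝ) / (2 * H : ℕ))) with hω
  have hH0 : (H : ℝ) ≠ 0 := by exact_mod_cast hH.ne'
  have hωH : ω ^ H = -1 := by
    have h2 : (H : ℝ) * -((j : ℝ) / (2 * H : ℕ)) = ((-(t + 1) : ℤ) : ℝ) + 1 / 2 := by
      rw [ht]; push_cast; field_simp; ring
    rw [hω, ← ex_nat_mul, h2, ex_add, ex_int, one_mul, ex]
    rw [show ((2 * Real.pi * (1 / 2) : ℝ) : ℂ) = (Real.pi : ℂ) by push_cast; ring]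
    exact Complex.exp_pi_mul_I
  have hw : wave H j * ((2 * H : ℕ) : ℂ) * (ω - 1) = -4 := by
    have hne : ((2 * H : ℕ) : ℂ) ≠ 0 := by exact_mod_cast (by omega : 2 * H ≠ 0)
    rw [wave, div_mul_cancel₀ _ hne]
    have e : ∀ i : ℕ, ex (-((i : ℝ) * (((j : ℤ) : ℝ) / (2 * H : ℕ)))) = ω ^ i := fun i => by
      rw [hω, ← ex_nat_mul, Int.cast_natCast, mul_neg]
    simp only [e]
    rw [two_mul, sum_range_add]
    have a1 : ∑ i ∈ range H, sq' H i * ω ^ i = ∑ i ∈ range H, ω ^ i :=
      sum_congr rfl fun i hi => by simp [sq', mem_range.1 hi]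
    have a2 : ∑ i ∈ range H, sq' H (H + i) * ω ^ (H + i) = ∑ i ∈ range H, ω ^ i :=
      sum_congr rfl fun i _ => by simp [sq', pow_add, hωH]
    rw [a1, a2, ← two_mul, mul_assoc, geom_sum_mul, hωH]
    norm_num
  have hω1 : ‖ω - 1‖ ≤ 2 * Real.pi * ((j : ℝ) / (2 * H : ℕ)) := by
    rw [hω, ex]
    refine le_trans (le_of_eq ?_) ((Real.norm_exp_I_mul_ofReal_sub_one_le
      (x := 2 * Real.pi * -((j : ℝ) / (2 * H : ℕ)))).trans (le_of_eq ?_))
    · rw [mul_comm (Complex.I)]
    · rw [mul_neg, norm_neg, Real.norm_of_nonneg (by positivity)]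
  have h4 : 4 ≤ ‖wave H j‖ * ((2 * H : ℕ) : ℝ) * (2 * Real.pi * ((j : ℝ) / (2 * H : ℕ))) := by
    have := congrArg norm hw
    rw [norm_mul, norm_mul, Complex.norm_natCast, norm_neg] at this
    refine le_trans (le_of_eq ?_) (mul_le_mul_of_nonneg_left hω1 (by positivity))
    rw [this]
    norm_num
  have hj0 : (0 : ℝ) < j := by exact_mod_cast (by omega : 0 < j)
  have h5 : 2 / (Real.pi * j) ≤ ‖wave H j‖ := by
    rw [div_le_iff₀ (by positivity)]
    field_simp at h4
    nlinarith
  rw [coef, norm_mul, norm_div, Complex.norm_natCast, Complex.norm_natCast]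
  refine le_trans ?_ (mul_le_mul_of_nonneg_left h5 (by positivity))
  refine mul_le_mul_of_nonneg_right ?_ (by positivity)
  have h6 : (N : ℝ) ≤ (pairs N j).card + j := by
    exact_mod_cast (by have := pairs_card_ge N j; omega : N ≤ (pairs N j).card + j)
  rw [sub_le_iff_le_add, ← add_div, le_div_iff₀ (by exact_mod_cast hN), one_mul]
  exact h6

end Vale.Agent.P110.UF.Block
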