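import Mathlib
import Vale.Agent.P110.UF.BlockWave

/-!
# P110: the trigonometric block with primitive frequency vectors

The product of `d` square waves, restricted to primitive frequency vectors by Mobius inversion.
-/

open Finset
open scoped ComplexConjugate

namespace Vale.Agent.P110.UF.Block

theorem sum_inv_sq_le : ∀ n : ℕ, ∑ k ∈ Icc 2 n, 1 / (k : ℝ) ^ 2 ≤ 1 - 1 / ((max n 1 : ℕ) : ℝ)
  | 0 => by simp
  | 1 => by simp
  | n + 2 => by
    have ih := sum_inv_sq_le (n + 1)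
    rw [sum_Icc_succ_top (by omega : 2 ≤ n + 1 + 1)]
    rw [max_eq_left (by omega : 1 ≤ n + 1)] at ih
    rw [max_eq_left (by omega : 1 ≤ n + 2)]
    push_cast at ih ⊢
    have h1 : (0 : ℝ) < (n : ℝ) + 1 := by positivity
    have h2 : 1 / ((n : ℝ) + 1 + 1) ^ 2 ≤ 1 / ((n : ℝ) + 1) - 1 / ((n : ℝ) + 2) := by
      rw [div_sub_div _ _ h1.ne' (by positivity),
        div_le_div_iff₀ (by positivity) (by positivity)]
      nlinarith
    linarith

theorem moebius_sum {N g : ℕ} (hg : 0 < g) (hgN : g ≤ N) :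
    ∑ k ∈ (Icc 1 N).filter (fun k => k ∣ g), ((ArithmeticFunction.moebius k : ℤ) : ℂ) =
      if g = 1 then 1 else 0 := by
  have e : (Icc 1 N).filter (fun k => k ∣ g) = g.divisors := by
    ext k
    simp only [mem_filter, mem_Icc, Nat.mem_divisors]
    exact ⟨fun h => ⟨h.2, hg.ne'⟩,
      fun h => ⟨⟨Nat.pos_of_dvd_of_pos h.1 hg, (Nat.le_of_dvd hg h.1).trans hgN⟩, h.1⟩⟩
  have h := congrArg (fun f : ArithmeticFunction ℤ => f g)
    ArithmeticFunction.moebius_mul_coe_zeta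
  simp only [ArithmeticFunction.coe_mul_zeta_apply, ArithmeticFunction.one_apply] at h
  rw [e, ← Int.cast_sum, h]
  split <;> simp

variable {d : ℕ}

theorem mobius_split' (hd : 0 < d) {N : ℕ} (F : ℤ → Fin d → ℂ) (hF : ∀ i, F 0 i = 0) :
    ∑ m ∈ (Fintype.piFinset fun _ : Fin d => freq N).filter
        (fun m => Finset.univ.gcd m = 1), ∏ i, F (m i) i =
      ∑ k ∈ Icc 1 N, ((ArithmeticFunction.moebius k : ℤ) : ℂ) *
        ∏ i, ∑ j ∈ (freq N).filter (fun j => (k : ℤ) ∣ j), F j i := by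
  set P := Fintype.piFinset fun _ : Fin d => freq N with hP
  have e : ∀ k : ℕ, ∏ i, ∑ j ∈ (freq N).filter (fun j => (k : ℤ) ∣ j), F j i =
      ∑ m ∈ P, if (k : ℤ) ∣ Finset.univ.gcd m then ∏ i, F (m i) i else 0 := fun k => by
    rw [← sum_filter]
    have : P.filter (fun m => (k : ℤ) ∣ Finset.univ.gcd m) =
        Fintype.piFinset fun _ : Fin d => (freq N).filter (fun j => (k : ℤ) ∣ j) := by
      ext m
      simp only [hP, mem_filter, Fintype.mem_piFinset, Finset.dvd_gcd_iff, mem_univ, true_implies]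
      exact ⟨fun h i => ⟨h.1 i, h.2 i⟩, fun h => ⟨fun i => (h i).1, fun i => (h i).2⟩⟩
    rw [this, ← Finset.prod_univ_sum (fun _ => (freq N).filter fun j => (k : ℤ) ∣ j) fun i j => F j i]
  simp only [e, mul_sum]
  rw [sum_comm, sum_filter]
  refine sum_congr rfl fun m hm => ?_
  by_cases h0 : ∃ i, m i = 0
  · obtain ⟨i, hi⟩ := h0
    have : ∏ i, F (m i) i = 0 := prod_eq_zero (mem_univ i) (by rw [hi, hF])
    simp [this]
  rw [not_exists] at h0
  have hnn : 0 ≤ Finset.univ.gcd m := (Int.nonneg_iff_normalize_eq_self _).1 Finset.normalize_gcd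
  obtain ⟨g, hg⟩ := Int.eq_ofNat_of_zero_le hnn
  have hdvd : ∀ i, (g : ℤ) ∣ m i := fun i => hg ▸ Finset.gcd_dvd (mem_univ i)
  have hg0 : 0 < g := by
    rcases Nat.eq_zero_or_pos g with h | h
    · have := hdvd ⟨0, hd⟩
      rw [h, Int.natCast_zero, zero_dvd_iff] at this
      exact absurd this (h0 _)
    · exact h
  have hgN : g ≤ N := by
    have hb := Fintype.mem_piFinset.1 hm ⟨0, hd⟩
    simp only [freq, mem_Ioo] at hb
    have h1 := Int.le_of_dvd (abs_pos.2 (h0 ⟨0, hd⟩)) ((dvd_abs _ _).2 (hdvd ⟨0, hd⟩))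
    rcases abs_cases (m ⟨0, hd⟩) with h | h <;> omega
  simp only [hg, Int.natCast_dvd_natCast, Nat.cast_eq_one, mul_ite, mul_zero]
  rw [← sum_filter, ← sum_mul, moebius_sum hg0 hgN]
  split <;> simp

theorem mobius_split (hd : 0 < d) {N : ℕ} (F : ℤ → ℂ) (hF : F 0 = 0) :
    ∑ m ∈ (Fintype.piFinset fun _ : Fin d => freq N).filter
        (fun m => Finset.univ.gcd m = 1), ∏ i, F (m i) =
      ∑ k ∈ Icc 1 N, ((ArithmeticFunction.moebius k : ℤ) : ℂ) *
        (∑ j ∈ (freq N).filter (fun j => (k : ℤ) ∣ j), F j) ^ d := by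
  rw [mobius_split' hd (fun j _ => F j) fun _ => hF]
  simp

theorem moebius_norm_le (k : ℕ) : ‖((ArithmeticFunction.moebius k : ℤ) : ℂ)‖ ≤ 1 := by
  rw [Complex.norm_intCast]
  exact_mod_cast ArithmeticFunction.abs_moebius_le_one

theorem tail_le {d : ℕ} (hd : 2 ≤ d) (N : ℕ) (e : ℕ → ℝ)
    (he : ∀ k ∈ Icc 2 N, 0 ≤ e k ∧ e k ≤ 1 / (k : ℝ)) :
    ∑ k ∈ Icc 2 N, e k ^ d ≤ (1 / 2 : ℝ) ^ (d - 2) := by
  calc ∑ k ∈ Icc 2 N, e k ^ d ≤ ∑ k ∈ Icc 2 N, (1 / 2 : ℝ) ^ (d - 2) * (1 / (k : ℝ) ^ 2) := by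
        refine sum_le_sum fun k hk => ?_
        obtain ⟨h1, h2⟩ := he k hk
        have hk2 : (2 : ℝ) ≤ k := by exact_mod_cast (mem_Icc.1 hk).1
        calc e k ^ d ≤ (1 / (k : ℝ)) ^ d := pow_le_pow_left₀ h1 h2 d
          _ = (1 / (k : ℝ)) ^ (d - 2) * (1 / (k : ℝ) ^ 2) := by
              rw [← one_div_pow (k : ℝ) 2, ← pow_add, Nat.sub_add_cancel hd]
          _ ≤ _ := by gcongr
    _ ≤ (1 / 2 : ℝ) ^ (d - 2) * 1 := by
        rw [← mul_sum]
        refine mul_le_mul_of_nonneg_left ((sum_inv_sq_le N).trans ?_) (by positivity)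
        simp
    _ = _ := mul_one _

theorem odd_inv_sq_large {δ : ℝ} (hδ : 0 < δ) :
    ∃ L : ℕ, 1 - δ ≤ 8 / Real.pi ^ 2 * ∑ j ∈ (Icc 1 L).filter Odd, 1 / (j : ℝ) ^ 2 := by
  have hp : 0 < 8 / Real.pi ^ 2 := by positivity
  have hz := hasSum_zeta_two
  have he : HasSum (fun n : ℕ => 1 / ((2 * n : ℕ) : ℝ) ^ 2) (Real.pi ^ 2 / 6 / 4) := by
    have := hz.div_const 4
    refine this.congr_fun fun n => ?_
    push_cast
    ring
  have ho : HasSum (fun n : ℕ => 1 / ((2 * n + 1 : ℕ) : ℝ) ^ 2) (Real.pi ^ 2 / 8) := by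
    have hs : Summable (fun n : ℕ => 1 / ((2 * n + 1 : ℕ) : ℝ) ^ 2) :=
      hz.summable.comp_injective fun a b h => by simpa using h
    have := (HasSum.even_add_odd (f := fun n : ℕ => 1 / (n : ℝ) ^ 2) he hs.hasSum).unique hz
    convert hs.hasSum using 1
    linarith
  obtain ⟨n, hn⟩ := (ho.tendsto_sum_nat.eventually (lt_mem_nhds
    (show Real.pi ^ 2 / 8 - δ / (8 / Real.pi ^ 2) < Real.pi ^ 2 / 8 by
      linarith [div_pos hδ hp]))).exists
  refine ⟨2 * n, ?_⟩
  have hsub : (range n).image (fun i => 2 * i + 1) ⊆ (Icc 1 (2 * n)).filter Odd := by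
    intro x hx
    obtain ⟨i, hi, rfl⟩ := mem_image.1 hx
    rw [mem_range] at hi
    simp only [mem_filter, mem_Icc]
    exact ⟨⟨by omega, by omega⟩, i, rfl⟩
  have h2 : ∑ i ∈ range n, 1 / ((2 * i + 1 : ℕ) : ℝ) ^ 2 ≤
      ∑ j ∈ (Icc 1 (2 * n)).filter Odd, 1 / (j : ℝ) ^ 2 := by
    refine le_trans (le_of_eq ?_) (sum_le_sum_of_subset_of_nonneg hsub
      fun _ _ _ => by positivity)
    rw [sum_image fun a _ b _ h => by simpa using h]
  calc 1 - δ = 8 / Real.pi ^ 2 * (Real.pi ^ 2 / 8 - δ / (8 / Real.pi ^ 2)) := by field_simp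
    _ ≤ _ := mul_le_mul_of_nonneg_left (hn.le.trans h2) hp.le

theorem exists_wave {δ : ℝ} (hδ : 0 < δ) : ∃ N H : ℕ, 0 < N ∧ N ≤ H ∧
    (∀ k ∈ Icc 1 N, k ∣ 2 * H) ∧ 1 - δ ≤ ∑ j ∈ freq N, ‖coef N H j‖ ^ 2 := by
  obtain ⟨L, hL⟩ := odd_inv_sq_large (half_pos hδ)
  obtain ⟨N₀, hN₀⟩ := exists_nat_gt (4 * (L : ℝ) / δ)
  set N := max N₀ (L + 1) with hN
  have hN0 : 0 < N := by omega
  set H := N * N.factorial with hH
  refine ⟨N, H, hN0, Nat.le_mul_of_pos_right N N.factorial_pos, fun k hk => ?_, ?_⟩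
  · exact ((Nat.dvd_factorial (mem_Icc.1 hk).1 (mem_Icc.1 hk).2).trans
      (dvd_mul_left _ _)).trans (dvd_mul_left _ _)
  set J := (Icc 1 L).filter Odd with hJ
  set w : ℝ := 1 - (L : ℝ) / N with hw
  have hNr : (0 : ℝ) < N := by exact_mod_cast hN0
  have hLN : 4 * (L : ℝ) ≤ δ * N := by
    have : 4 * (L : ℝ) / δ ≤ N := hN₀.le.trans (by exact_mod_cast le_max_left _ _)
    rwa [div_le_iff₀ hδ, mul_comm (N : ℝ)] at this
  have hw0 : 0 ≤ w := by
    rw [hw, sub_nonneg, div_le_one hNr]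
    exact_mod_cast (by omega : L ≤ N)
  have hterm : ∀ j ∈ J, w ^ 2 * (4 / Real.pi ^ 2 * (1 / (j : ℝ) ^ 2)) ≤ ‖coef N H j‖ ^ 2 := by
    intro j hj
    simp only [hJ, mem_filter, mem_Icc] at hj
    have h := coef_ge hN0 (Nat.mul_pos hN0 N.factorial_pos) j hj.2
    have hj0 : (0 : ℝ) < j := by exact_mod_cast hj.1.1
    calc w ^ 2 * (4 / Real.pi ^ 2 * (1 / (j : ℝ) ^ 2))
        = (w * (2 / (Real.pi * j))) ^ 2 := by field_simp; ring
      _ ≤ _ := by
          refine pow_le_pow_left₀ (by positivity) (le_trans ?_ h) 2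
          refine mul_le_mul_of_nonneg_right ?_ (by positivity)
          rw [hw]
          gcongr
          exact_mod_cast hj.1.2
  have hsub : J.image (fun j : ℕ => (j : ℤ)) ∪ J.image (fun j : ℕ => -(j : ℤ)) ⊆ freq N := by
    intro x hx
    simp only [hJ, mem_union, mem_image, mem_filter, mem_Icc] at hx
    simp only [freq, mem_Ioo]
    rcases hx with ⟨j, hj, rfl⟩ | ⟨j, hj, rfl⟩ <;> omega
  have hdis : Disjoint (J.image (fun j : ℕ => (j : ℤ))) (J.image (fun j : ℕ => -(j : ℤ))) := by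
    rw [disjoint_left]
    intro x hx hx'
    simp only [hJ, mem_image, mem_filter, mem_Icc] at hx hx'
    obtain ⟨a, ha, rfl⟩ := hx
    obtain ⟨b, hb, hb'⟩ := hx'
    omega
  refine le_trans ?_ (sum_le_sum_of_subset_of_nonneg hsub fun _ _ _ => sq_nonneg _)
  rw [sum_union hdis, sum_image (fun a _ b _ h => by simpa using h),
    sum_image (fun a _ b _ h => by simpa using h)]
  simp only [coef_conj, Complex.norm_conj, ← two_mul]
  refine le_trans ?_ (mul_le_mul_of_nonneg_left (sum_le_sum hterm) zero_le_two)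
  rw [← mul_sum, ← mul_sum]
  have hw2 : 1 - δ / 2 ≤ w ^ 2 := by
    have h1 : (L : ℝ) / N ≤ δ / 4 := by
      rw [div_le_iff₀ hNr]
      nlinarith
    rw [hw]
    nlinarith [sq_nonneg ((L : ℝ) / N), h1]
  calc 1 - δ ≤ w ^ 2 * (1 - δ / 2) := by
        nlinarith [sq_nonneg (δ : ℝ), pow_le_one₀ (n := 2) hw0 (show w ≤ 1 by
          rw [hw]; linarith [show (0 : ℝ) ≤ (L : ℝ) / N by positivity])]
    _ ≤ w ^ 2 * (8 / Real.pi ^ 2 * ∑ j ∈ J, 1 / (j : ℝ) ^ 2) :=
        mul_le_mul_of_nonneg_left hL (sq_nonneg _)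
    _ = _ := by ring

end Block

open Block in
theorem block_stmt : BlockStmt := by
  intro ε hε
  obtain ⟨n, hn⟩ := exists_pow_lt_of_lt_one (show 0 < ε / 9 by linarith)
    (show (1 / 2 : ℝ) < 1 by norm_num)
  set d := n + 2 with hdd
  have hd0 : 0 < d := by omega
  have hdr : (0 : ℝ) < d := by exact_mod_cast hd0
  obtain ⟨N, H, hN, hNH, hdvd, hen⟩ :=
    exists_wave (show 0 < min 1 (ε / (2 * d)) from lt_min one_pos (by positivity))
  set δ : ℝ := (1 / 2 : ℝ) ^ (d - 2) with hδ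
  have hδ6 : δ < ε / 9 := by rw [hδ, show d - 2 = n by omega]; exact hn
  have hδ0 : 0 < δ := by rw [hδ]; positivity
  set S := (Fintype.piFinset fun _ : Fin d => freq N).filter
    (fun m => Finset.univ.gcd m = 1) with hS
  set c : (Fin d → ℤ) → ℂ := fun m => ((1 / (1 + δ) : ℝ) : ℂ) * ∏ i, coef N H (m i) with hc
  set E : ℕ → ℝ := fun k => ∑ j ∈ (freq N).filter (fun j => (k : ℤ) ∣ j), ‖coef N H j‖ ^ 2 with hE
  have hone : (freq N).filter (fun j => ((1 : ℕ) : ℤ) ∣ j) = freq N :=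
    filter_true_of_mem fun j _ => by simp
  have hsplit : Icc 1 N = insert 1 (Icc 2 N) := by
    ext x; simp only [mem_insert, mem_Icc]; omega
  have hnotmem : 1 ∉ Icc 2 N := by simp
  refine ⟨d, S, c, fun m hm => (mem_filter.1 hm).2, fun m hm => ?_, fun m _ => ?_, fun θ => ?_,
    ?_⟩
  · obtain ⟨h1, h2⟩ := mem_filter.1 hm
    refine mem_filter.2 ⟨Fintype.mem_piFinset.2 fun i => ?_, ?_⟩
    · have := Fintype.mem_piFinset.1 h1 i
      simp only [freq, mem_Ioo, Pi.neg_apply] at this ⊢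
      omega
    · rw [← h2]
      refine dvd_antisymm_of_normalize_eq Finset.normalize_gcd Finset.normalize_gcd ?_ ?_ <;>
        refine Finset.dvd_gcd fun i hi => ?_
      · have := Finset.gcd_dvd (f := -m) hi
        simpa using this
      · simpa using dvd_neg.2 (Finset.gcd_dvd (f := m) hi)
  · simp only [hc, Pi.neg_apply, coef_conj, map_mul, Complex.conj_ofReal, map_prod]
  · set F : ℤ → Fin d → ℂ := fun j i => coef N H j * ex ((j : ℝ) * θ i) with hF
    have e1 : ∑ m ∈ S, c m * ex (∑ i, (m i : ℝ) * θ i) =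
        ((1 / (1 + δ) : ℝ) : ℂ) * ∑ m ∈ S, ∏ i, F (m i) i := by
      rw [mul_sum]
      refine sum_congr rfl fun m _ => ?_
      simp only [hc, hF, ex_sum, prod_mul_distrib]
      ring
    have e2 : ∑ m ∈ S, ∏ i, F (m i) i = ∑ k ∈ Icc 1 N,
        ((ArithmeticFunction.moebius k : ℤ) : ℂ) *
          ∏ i, ∑ j ∈ (freq N).filter (fun j => (k : ℤ) ∣ j), F j i := by
      exact mobius_split' hd0 F fun i => by simp [hF, coef_zero]
    rw [e1, norm_mul, Complex.norm_real, Real.norm_of_nonneg (by positivity), div_mul_eq_mul_div,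
      one_mul, div_le_one (by linarith), e2]
    refine (norm_sum_le _ _).trans ?_
    have hb : ∀ k ∈ Icc 1 N, ‖((ArithmeticFunction.moebius k : ℤ) : ℂ) *
        ∏ i, ∑ j ∈ (freq N).filter (fun j => (k : ℤ) ∣ j), F j i‖ ≤ (1 / (k : ℝ)) ^ d := by
      intro k hk
      rw [norm_mul, norm_prod]
      refine le_trans (mul_le_mul (moebius_norm_le k) (prod_le_prod (fun i _ => norm_nonneg _)
        fun i _ => part_le hN (by omega) (mem_Icc.1 hk).1 (hdvd k hk) (θ i))
        (by positivity) zero_le_one) ?_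
      simp
    refine (sum_le_sum hb).trans ?_
    rw [hsplit, sum_insert hnotmem]
    have := tail_le (by omega : 2 ≤ d) N (fun k => 1 / (k : ℝ))
      fun k _ => ⟨by positivity, le_rfl⟩
    rw [← hδ] at this
    simp only [Nat.cast_one, one_div_one, one_pow]
    linarith
  · have hmass : ((∑ m ∈ S, ‖∏ i, coef N H (m i)‖ ^ 2 : ℝ) : ℂ) =
        ∑ k ∈ Icc 1 N, ((ArithmeticFunction.moebius k : ℤ) : ℂ) * ((E k : ℝ) : ℂ) ^ d := by
      have h := mobius_split hd0 (N := N) (fun j => ((‖coef N H j‖ ^ 2 : ℝ) : ℂ))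
        (by simp [coef_zero])
      simp only [hE, Complex.ofReal_sum]
      rw [← hS] at h
      rw [← h]
      refine sum_congr rfl fun m _ => ?_
      rw [norm_prod, ← prod_pow, Complex.ofReal_prod]
    have hE1 : E 1 = ∑ j ∈ freq N, ‖coef N H j‖ ^ 2 := by simp only [hE, hone]
    have hEk : ∀ k ∈ Icc 1 N, 0 ≤ E k ∧ E k ≤ 1 / (k : ℝ) ^ 2 := fun k hk =>
      ⟨sum_nonneg fun _ _ => sq_nonneg _, energy_le hN (by omega) (hdvd k hk)⟩
    set T := ∑ m ∈ S, ‖∏ i, coef N H (m i)‖ ^ 2 with hT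
    have hre : T = ∑ k ∈ Icc 1 N, ((ArithmeticFunction.moebius k : ℤ) : ℝ) * E k ^ d := by
      apply Complex.ofReal_injective
      rw [hmass]
      push_cast
      rfl
    have hup : T ≤ E 1 ^ d := by
      have h : T ≤ ∑ m ∈ Fintype.piFinset (fun _ : Fin d => freq N),
          ‖∏ i, coef N H (m i)‖ ^ 2 :=
        sum_le_sum_of_subset_of_nonneg (filter_subset _ _) fun _ _ _ => sq_nonneg _
      refine h.trans (le_of_eq ?_)
      simp only [norm_prod, ← prod_pow]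
      rw [← Finset.prod_univ_sum (fun _ => freq N) fun _ j => ‖coef N H j‖ ^ 2, prod_const,
        card_univ, Fintype.card_fin, hE1]
    have hlo : E 1 ^ d - δ ≤ T := by
      rw [hre, hsplit, sum_insert hnotmem, ArithmeticFunction.moebius_apply_one, Int.cast_one,
        one_mul]
      have h2 := tail_le (by omega : 2 ≤ d) N E fun k hk => by
        have hk' : k ∈ Icc 1 N := by rw [hsplit]; exact mem_insert_of_mem hk
        have hk1 : (1 : ℝ) ≤ k := by exact_mod_cast (mem_Icc.1 hk').1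
        refine ⟨(hEk k hk').1, (hEk k hk').2.trans ?_⟩
        exact one_div_le_one_div_of_le (by linarith) (le_self_pow₀ hk1 two_ne_zero)
      have h3 : -(∑ k ∈ Icc 2 N, E k ^ d) ≤
          ∑ k ∈ Icc 2 N, ((ArithmeticFunction.moebius k : ℤ) : ℝ) * E k ^ d := by
        rw [← sum_neg_distrib]
        refine sum_le_sum fun k hk => ?_
        have hk' : k ∈ Icc 1 N := by rw [hsplit]; exact mem_insert_of_mem hk
        have ha : (-1 : ℝ) ≤ ((ArithmeticFunction.moebius k : ℤ) : ℝ) := by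
          exact_mod_cast (abs_le.1 (ArithmeticFunction.abs_moebius_le_one (n := k))).1
        nlinarith [pow_nonneg (hEk k hk').1 d]
      linarith
    have h11 : (1 : ℕ) ∈ Icc 1 N := mem_Icc.2 ⟨le_rfl, hN⟩
    have hE1' : E 1 ≤ 1 := by simpa using (hEk 1 h11).2
    have hsum : ∑ m ∈ S, ‖c m‖ ^ 2 = T / (1 + δ) ^ 2 := by
      rw [hT, sum_div]
      refine sum_congr rfl fun m _ => ?_
      simp only [hc, norm_mul, Complex.norm_real, Real.norm_of_nonneg (by positivity : 0 ≤ 1 / (1 + δ)),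
        mul_pow, div_pow, one_pow]
      ring
    rw [hsum]
    constructor
    · set x : ℝ := min 1 (ε / (2 * d)) with hx
      have hb : 1 - ε / 2 ≤ E 1 ^ d := by
        have hpow : (1 - x) ^ d ≤ E 1 ^ d :=
          pow_le_pow_left₀ (by linarith [min_le_left (1 : ℝ) (ε / (2 * d))]) (hE1 ▸ hen) d
        have hber := one_add_mul_le_pow (show (-2 : ℝ) ≤ -x by
          linarith [min_le_left (1 : ℝ) (ε / (2 * d))]) d
        have hdx : (d : ℝ) * x ≤ ε / 2 := by
          calc (d : ℝ) * x ≤ d * (ε / (2 * d)) := mul_le_mul_of_nonneg_left (min_le_right _ _) hdr.le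
            _ = ε / 2 := by field_simp
        rw [← sub_eq_add_neg] at hber
        nlinarith
      rw [le_div_iff₀ (by positivity)]
      by_cases hε1 : ε ≤ 1
      · have h3 : (1 + δ) ^ 2 ≤ 1 + 3 * δ := by nlinarith
        nlinarith [mul_le_mul_of_nonneg_left h3 (by linarith : (0 : ℝ) ≤ 1 - ε)]
      · nlinarith [pow_nonneg (hEk 1 h11).1 d, sum_nonneg (s := S)
          (fun m _ => sq_nonneg ‖∏ i, coef N H (m i)‖)]
    · rw [div_le_one (by positivity)]
      have := pow_le_one₀ (n := d) (hEk 1 h11).1 hE1'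
      nlinarith

end Vale.Agent.P110.UF
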