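import Mathlib
import Vale.Agent.P110.UF.Phase.Defs

/-!
# P110: damped truncation of the phase series

The weights are the convolution of two intervals, so the kernel is a product of two Dirichlet
sums, bounded by `N` and by `1 / (4 r u ^ 2)`.  Against this kernel `exp (2 π i N Φ)` is compared
with the single harmonic `round (N τ x)` on the window `|u| ≤ q / N`.
-/

open Finset MeasureTheory
open scoped ComplexConjugate

namespace Vale.Agent.P110.UF

namespace Trunc

lemma ex_eq (x : ℝ) : ex x = Complex.exp (((2 * Real.pi * x : ℝ) : ℂ) * Complex.I) := rfl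

lemma ex_norm (x : ℝ) : ‖ex x‖ = 1 := Complex.norm_exp_ofReal_mul_I _

lemma ex_add (x y : ℝ) : ex (x + y) = ex x * ex y := by
  simp only [ex_eq, ← Complex.exp_add]
  congr 1
  push_cast
  ring

lemma ex_zero : ex 0 = 1 := by simp [ex_eq]

lemma ex_conj (x : ℝ) : conj (ex x) = ex (-x) := by
  simp only [ex_eq, ← Complex.exp_conj, map_mul, Complex.conj_ofReal, Complex.conj_I]
  congr 1
  push_cast
  ring

lemma ex_int (n : ℤ) : ex n = 1 := by
  rw [ex_eq, ← Complex.exp_int_mul_two_pi_mul_I n]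
  congr 1
  push_cast
  ring

lemma ex_nat_mul (k : ℕ) (x : ℝ) : ex ((k : ℝ) * x) = ex x ^ k := by
  induction k with
  | zero => simp [ex_zero]
  | succ k ih => rw [pow_succ, ← ih, ← ex_add]; congr 1; push_cast; ring

lemma continuous_ex : Continuous ex := by
  unfold ex
  fun_prop

lemma ex_sub_le (a b : ℝ) : ‖ex a - ex b‖ ≤ 2 * Real.pi * |a - b| := by
  have e : ex a - ex b = ex b * (ex (a - b) - 1) := by
    rw [mul_sub, ← ex_add, mul_one, add_sub_cancel]
  rw [e, norm_mul, ex_norm, one_mul, ex_eq, mul_comm _ Complex.I]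
  refine le_trans (Real.norm_exp_I_mul_ofReal_sub_one_le) ?_
  rw [Real.norm_eq_abs, abs_mul, abs_of_nonneg (by positivity : 0 ≤ 2 * Real.pi)]

lemma four_mul_le_norm (u : ℝ) (hu : |u| ≤ 1 / 2) : 4 * |u| ≤ ‖ex u - 1‖ := by
  have h : ‖ex u - 1‖ = 2 * |Real.sin (Real.pi * u)| := by
    rw [ex_eq, mul_comm _ Complex.I, Complex.norm_exp_I_mul_ofReal_sub_one, Real.norm_eq_abs,
      abs_mul, abs_two]
    ring_nf
  have hp := Real.pi_pos
  have h2 : Real.pi * |u| ≤ Real.pi / 2 := by nlinarith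
  have h3 := Real.mul_le_sin (by positivity : 0 ≤ Real.pi * |u|) h2
  have h4 : 2 / Real.pi * (Real.pi * |u|) = 2 * |u| := by field_simp
  have h5 : Real.sin (Real.pi * |u|) ≤ |Real.sin (Real.pi * u)| := by
    rcases abs_cases u with ⟨e, -⟩ | ⟨e, -⟩
    · rw [e]; exact le_abs_self _
    · rw [e, mul_neg, Real.sin_neg]; exact neg_le_abs _
  rw [h]
  linarith

/-- A Dirichlet sum is small away from the integers. -/
lemma geom_ex_le (A : ℕ) (u : ℝ) (hu : |u| ≤ 1 / 2) :
    (2 * |u|) * ‖∑ a ∈ range A, ex ((a : ℝ) * u)‖ ≤ 1 := by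
  have h : (∑ a ∈ range A, ex ((a : ℝ) * u)) * (ex u - 1) = ex ((A : ℝ) * u) - 1 := by
    simp only [ex_nat_mul]
    exact geom_sum_mul _ _
  have h1 := congrArg (fun z : ℂ => ‖z‖) h
  simp only [norm_mul] at h1
  have h2 : ‖ex ((A : ℝ) * u) - 1‖ ≤ 2 :=
    (norm_sub_le _ _).trans (by rw [ex_norm, norm_one]; norm_num)
  have h3 := mul_le_mul_of_nonneg_left (four_mul_le_norm u hu)
    (norm_nonneg (∑ a ∈ range A, ex ((a : ℝ) * u)))
  linarith

lemma geom_ex_le_card (A : ℕ) (u : ℝ) : ‖∑ a ∈ range A, ex ((a : ℝ) * u)‖ ≤ A := by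
  refine (norm_sum_le _ _).trans ?_
  simp [ex_norm]

/-- Trapezoid weights. -/
noncomputable def weight (A r k : ℕ) : ℝ :=
  (((range A ×ˢ range r).filter fun p => p.1 + p.2 = k).card : ℝ) / r

/-- The kernel of the weights. -/
noncomputable def kernel (A r : ℕ) (u : ℝ) : ℂ :=
  (1 / (r : ℂ)) * ((∑ a ∈ range A, ex ((a : ℝ) * u)) * ∑ b ∈ range r, ex ((b : ℝ) * u))

lemma weight_mem (A r k : ℕ) : 0 ≤ weight A r k ∧ weight A r k ≤ 1 := by
  refine ⟨by unfold weight; positivity, div_le_one_of_le₀ ?_ (Nat.cast_nonneg _)⟩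
  refine Nat.cast_le.2 ?_
  have h : ((range A ×ˢ range r).filter fun p => p.1 + p.2 = k).card ≤ (range r).card := by
    refine card_le_card_of_injOn Prod.snd (fun p hp => ?_) fun p hp q hq e => ?_
    · simp only [coe_filter, mem_product, Set.mem_ofPred_eq] at hp
      exact mem_coe.2 hp.1.2
    · simp only [coe_filter, mem_product, Set.mem_ofPred_eq] at hp hq
      exact Prod.ext (by omega) e
  simpa using h

lemma weight_eq_one (A r k : ℕ) (hr : 0 < r) (h1 : r ≤ k + 1) (h2 : k < A) :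
    weight A r k = 1 := by
  have h : ((range A ×ˢ range r).filter fun p => p.1 + p.2 = k).card = (range r).card := by
    refine card_bij (fun p _ => p.2) (fun p hp => ?_) (fun p hp q hq e => ?_) fun b hb => ?_
    · exact (mem_product.1 (mem_filter.1 hp).1).2
    · have := (mem_filter.1 hp).2
      have := (mem_filter.1 hq).2
      exact Prod.ext (by omega) e
    · have := mem_range.1 hb
      exact ⟨(k - b, b), mem_filter.2 ⟨mem_product.2 ⟨mem_range.2 (by omega), hb⟩, by omega⟩, rfl⟩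
  rw [weight, h, card_range, div_self]
  exact_mod_cast hr.ne'

lemma weight_sum (A r N : ℕ) (hN : A + r ≤ N + 1) (hA : 0 < A) (hr : 0 < r) (f : ℕ → ℂ) :
    (1 / (r : ℂ)) * ∑ a ∈ range A, ∑ b ∈ range r, f (a + b) =
      ∑ k ∈ range N, (weight A r k : ℂ) * f k := by
  rw [← sum_product', ← sum_fiberwise_of_maps_to (g := fun p : ℕ × ℕ => p.1 + p.2) (t := range N)
    (fun p hp => by simp only [mem_product, mem_range] at hp ⊢; omega), mul_sum]
  refine sum_congr rfl fun k _ => ?_
  rw [sum_congr rfl fun p hp => by rw [(mem_filter.1 hp).2], sum_const, nsmul_eq_mul, weight]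
  push_cast
  ring

lemma kernel_eq (A r N : ℕ) (hN : A + r ≤ N + 1) (hA : 0 < A) (hr : 0 < r) (u : ℝ) :
    kernel A r u = ∑ k ∈ range N, (weight A r k : ℂ) * ex ((k : ℝ) * u) := by
  rw [← weight_sum A r N hN hA hr fun k => ex ((k : ℝ) * u), kernel, sum_mul_sum]
  congr 1
  refine sum_congr rfl fun a _ => sum_congr rfl fun b _ => ?_
  rw [← ex_add]
  congr 1
  push_cast
  ring

lemma kernel_le (A r : ℕ) (hr : 0 < r) (u : ℝ) : ‖kernel A r u‖ ≤ A := by
  rw [kernel, norm_mul, norm_mul, norm_div, norm_one, Complex.norm_natCast, div_mul_eq_mul_div,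
    one_mul, div_le_iff₀ (by exact_mod_cast hr)]
  exact mul_le_mul (geom_ex_le_card A u) (geom_ex_le_card r u) (norm_nonneg _) (Nat.cast_nonneg _)

lemma kernel_decay (A r : ℕ) (hr : 0 < r) (u : ℝ) (h0 : u ≠ 0) (hu : |u| ≤ 1 / 2) :
    ‖kernel A r u‖ ≤ 1 / (4 * r) * (u ^ 2)⁻¹ := by
  have ha := geom_ex_le A u hu
  have hb := geom_ex_le r u hu
  have h := mul_le_mul ha hb (by positivity) zero_le_one
  have hr' : (0 : ℝ) < r := by exact_mod_cast hr
  rw [kernel, norm_mul, norm_mul, norm_div, norm_one, Complex.norm_natCast, ← sq_abs u]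
  have hu0 : 0 < |u| := abs_pos.2 h0
  rw [div_mul_eq_mul_div, one_mul, div_le_iff₀ hr']
  rw [show 1 / (4 * (r : ℝ)) * (|u| ^ 2)⁻¹ * r = 1 / (4 * |u| ^ 2) by field_simp]
  rw [le_div_iff₀ (by positivity)]
  linarith

lemma continuous_kernel (A r : ℕ) : Continuous (kernel A r) := by
  unfold kernel
  exact continuous_const.mul ((continuous_finsetSum _ fun a _ =>
    continuous_ex.comp (continuous_const.mul continuous_id)).mul (continuous_finsetSum _ fun a _ =>
    continuous_ex.comp (continuous_const.mul continuous_id)))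

lemma continuous_ex_mul (c : ℝ) : Continuous fun u => ex (c * u) :=
  continuous_ex.comp (continuous_const.mul continuous_id)

lemma hasDerivAt_ex_mul (c u : ℝ) :
    HasDerivAt (fun x => ex (c * x)) (((2 * Real.pi * c : ℝ) : ℂ) * Complex.I * ex (c * u)) u := by
  have h : HasDerivAt (fun x : ℝ => (((2 * Real.pi * (c * x) : ℝ) : ℂ) * Complex.I))
      (((2 * Real.pi * (c * 1) : ℝ) : ℂ) * Complex.I) u :=
    ((((hasDerivAt_id u).const_mul c).const_mul (2 * Real.pi)).ofReal_comp).mul_const Complex.I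
  refine h.cexp.congr_deriv ?_
  rw [mul_one, ex_eq]
  ring

/-- Orthogonality of the harmonics. -/
lemma integral_ex (n : ℤ) :
    ∫ u in (-(1 / 2 : ℝ))..(1 / 2), ex ((n : ℝ) * u) = if n = 0 then 1 else 0 := by
  split_ifs with h
  · subst h
    simp [ex_zero]
    norm_num
  · have hc : ((2 * Real.pi * (n : ℝ) : ℝ) : ℂ) * Complex.I ≠ 0 :=
      mul_ne_zero (by exact_mod_cast (by positivity : (2 * Real.pi * (n : ℝ)) ≠ 0)) Complex.I_ne_zero
    have hd : ∀ u : ℝ, HasDerivAt
        (fun x => ex ((n : ℝ) * x) / (((2 * Real.pi * (n : ℝ) : ℝ) : ℂ) * Complex.I))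
        (ex ((n : ℝ) * u)) u := fun u =>
      ((hasDerivAt_ex_mul (n : ℝ) u).div_const _).congr_deriv (mul_div_cancel_left₀ _ hc)
    rw [intervalIntegral.integral_eq_sub_of_hasDerivAt (fun u _ => hd u)
      ((continuous_ex.comp (continuous_const.mul continuous_id)).intervalIntegrable _ _)]
    have e : ex ((n : ℝ) * (1 / 2)) = ex ((n : ℝ) * -(1 / 2)) := by
      rw [show (n : ℝ) * (1 / 2) = (n : ℝ) * -(1 / 2) + (n : ℝ) by ring, ex_add, ex_int, mul_one]
    rw [e, sub_self]

lemma integral_ex_kernel (A r N j : ℕ) (hN : A + r ≤ N + 1) (hA : 0 < A) (hr : 0 < r)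
    (hj : j < N) :
    ∫ u in (-(1 / 2 : ℝ))..(1 / 2), ex (-(j : ℝ) * u) * kernel A r u = (weight A r j : ℂ) := by
  have e : ∀ u : ℝ, ex (-(j : ℝ) * u) * kernel A r u =
      ∑ k ∈ range N, (weight A r k : ℂ) * ex ((((k : ℤ) - j : ℤ) : ℝ) * u) := fun u => by
    rw [kernel_eq A r N hN hA hr, mul_sum]
    refine sum_congr rfl fun k _ => ?_
    rw [mul_left_comm, ← ex_add]
    congr 2
    push_cast
    ring
  simp only [e]
  have hi : ∀ k ∈ range N, IntervalIntegrable
      (fun u => (weight A r k : ℂ) * ex ((((k : ℤ) - j : ℤ) : ℝ) * u)) volume (-(1 / 2)) (1 / 2) :=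
    fun k _ => (continuous_const.mul (continuous_ex_mul _)).intervalIntegrable _ _
  rw [intervalIntegral.integral_finsetSum hi]
  simp only [intervalIntegral.integral_const_mul, integral_ex]
  rw [sum_eq_single j]
  · simp
  · intro k _ hk
    rw [if_neg (by omega), mul_zero]
  · intro h
    exact absurd (mem_range.2 hj) h

lemma integral_inv_sq (a b : ℝ) (ha : 0 < a) (hab : a ≤ b) :
    ∫ u in a..b, (u ^ 2)⁻¹ = 1 / a - 1 / b := by
  have hpos : ∀ u ∈ Set.uIcc a b, 0 < u := fun u hu => by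
    rw [Set.uIcc_of_le hab] at hu
    exact ha.trans_le hu.1
  rw [intervalIntegral.integral_eq_sub_of_hasDerivAt (f := fun u => -u⁻¹)
    (fun u hu => ((hasDerivAt_inv (hpos u hu).ne').neg).congr_deriv (neg_neg _))]
  · rw [one_div, one_div]; ring
  · refine (ContinuousOn.inv₀ (continuous_pow 2).continuousOn fun u hu => ?_).intervalIntegrable
    exact pow_ne_zero 2 (hpos u hu).ne'

/-- One outer part of the kernel integral. -/
lemma tail_le (A r : ℕ) (hr : 0 < r) (h : ℝ) (h0 : 0 < h) (h2 : h ≤ 1 / 2) (s : ℝ)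
    (hs : s = 1 ∨ s = -1) :
    ∫ u in h..(1 / 2), ‖kernel A r (s * u)‖ ≤ 1 / (4 * r * h) := by
  have habs : |s| = 1 := by rcases hs with rfl | rfl <;> simp
  have hmono : ∫ u in h..(1 / 2), ‖kernel A r (s * u)‖ ≤
      ∫ u in h..(1 / 2), 1 / (4 * (r : ℝ)) * (u ^ 2)⁻¹ := by
    refine intervalIntegral.integral_mono_on h2 (Continuous.intervalIntegrable
      (((continuous_kernel A r).comp (continuous_const.mul continuous_id)).norm) _ _) ?_ ?_
    · refine (continuousOn_const.mul (ContinuousOn.inv₀ (continuous_pow 2).continuousOn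
        fun u hu => ?_)).intervalIntegrable
      rw [Set.uIcc_of_le h2] at hu
      exact pow_ne_zero 2 (h0.trans_le hu.1).ne'
    · intro u hu
      have hu0 : 0 < u := h0.trans_le hu.1
      have hne : s * u ≠ 0 := by rcases hs with rfl | rfl <;> simp [hu0.ne']
      have h3 := kernel_decay A r hr (s * u) hne
        (by rw [abs_mul, habs, one_mul, abs_of_pos hu0]; exact hu.2)
      rwa [mul_pow, ← sq_abs s, habs, one_pow, one_mul] at h3
  refine hmono.trans ?_
  rw [intervalIntegral.integral_const_mul, integral_inv_sq h (1 / 2) h0 h2]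
  have hr' : (0 : ℝ) < r := by exact_mod_cast hr
  rw [show 1 / (4 * (r : ℝ) * h) = 1 / (4 * r) * (1 / h) by field_simp]
  exact mul_le_mul_of_nonneg_left (by norm_num) (by positivity)

/-- A bounded function against the kernel, split at `h`. -/
lemma norm_integral_kernel_le (A r : ℕ) (hr : 0 < r) (D : ℝ → ℂ) (hD : Continuous D) (h E : ℝ)
    (h0 : 0 < h) (h2 : h ≤ 1 / 2) (hE0 : 0 ≤ E) (hin : ∀ u, |u| ≤ h → ‖D u‖ ≤ E)
    (hout : ∀ u, ‖D u‖ ≤ 2) :
    ‖∫ u in (-(1 / 2 : ℝ))..(1 / 2), D u * kernel A r u‖ ≤ E * (2 * h * A) + 1 / (r * h) := by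
  have hc : Continuous fun u => D u * kernel A r u := hD.mul (continuous_kernel A r)
  have hk : Continuous fun u => ‖kernel A r u‖ := (continuous_kernel A r).norm
  have hi : ∀ a b, IntervalIntegrable (fun u => D u * kernel A r u) volume a b := fun a b =>
    hc.intervalIntegrable a b
  rw [← intervalIntegral.integral_add_adjacent_intervals (hi _ (-h)) (hi _ _),
    ← intervalIntegral.integral_add_adjacent_intervals (hi (-h) h) (hi _ _)]
  have hmid : ‖∫ u in (-h)..h, D u * kernel A r u‖ ≤ E * (2 * h * A) := by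
    refine (intervalIntegral.norm_integral_le_of_norm_le_const (C := E * A) fun u hu => ?_).trans
      (le_of_eq ?_)
    · rw [Set.uIoc_of_le (by linarith)] at hu
      rw [norm_mul]
      exact mul_le_mul (hin u (abs_le.2 ⟨hu.1.le, hu.2⟩)) (kernel_le A r hr u) (norm_nonneg _) hE0
    · rw [show h - -h = 2 * h by ring, abs_of_pos (by linarith)]
      ring
  have hside : ∀ a b, a ≤ b → ‖∫ u in a..b, D u * kernel A r u‖ ≤
      2 * ∫ u in a..b, ‖kernel A r u‖ := fun a b hab => by
    refine (intervalIntegral.norm_integral_le_of_norm_le (g := fun u => 2 * ‖kernel A r u‖) hab (Filter.Eventually.of_forall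
      fun u _ => ?_) ((continuous_const.mul hk).intervalIntegrable a b)).trans (le_of_eq ?_)
    · rw [norm_mul]
      exact mul_le_mul_of_nonneg_right (hout u) (norm_nonneg _)
    · exact intervalIntegral.integral_const_mul _ _
  have hr1 := tail_le A r hr h h0 h2 1 (Or.inl rfl)
  have hl1 := tail_le A r hr h h0 h2 (-1) (Or.inr rfl)
  simp only [one_mul] at hr1
  simp only [neg_one_mul] at hl1
  rw [intervalIntegral.integral_comp_neg (fun u => ‖kernel A r u‖)] at hl1
  have e : 1 / ((r : ℝ) * h) = 4 * (1 / (4 * r * h)) := by field_simp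
  rw [e]
  refine (norm_add_le _ _).trans ?_
  refine (add_le_add le_rfl (norm_add_le _ _)).trans ?_
  have := hside _ _ (by linarith : (-(1 / 2) : ℝ) ≤ -h)
  have := hside _ _ h2
  linarith

section Main

variable {η M : ℝ} {N : ℕ} {Φ τ : ℝ → ℝ}

lemma continuous_phase (hP : Phase η M N Φ τ) : Continuous fun x => ex (N * Φ x) :=
  continuous_ex.comp (continuous_const.mul
    (continuous_iff_continuousAt.2 fun x => (hP.deriv x).continuousAt))

lemma taylor_le (hP : Phase η M N Φ τ) (x u : ℝ) :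
    |Φ (x - u) - Φ x + τ x * u| ≤ |M| * u ^ 2 := by
  have hd : ∀ v ∈ Set.uIcc 0 u, HasDerivWithinAt (fun v => Φ (x - v) + τ x * v)
      (τ x - τ (x - v)) (Set.uIcc 0 u) v := by
    intro v _
    refine ((((hP.deriv (x - v)).comp v ((hasDerivAt_id v).const_sub x)).add
      ((hasDerivAt_id v).const_mul (τ x))).congr_deriv ?_).hasDerivWithinAt
    ring
  have hb : ∀ v ∈ Set.uIcc 0 u, ‖τ x - τ (x - v)‖ ≤ |M| * |u| := by
    intro v hv
    rw [Real.norm_eq_abs]
    refine (hP.lip x (x - v)).trans ((mul_le_mul_of_nonneg_right (le_abs_self M)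
      (abs_nonneg _)).trans (mul_le_mul_of_nonneg_left ?_ (abs_nonneg M)))
    rw [sub_sub_cancel]
    simpa using Set.abs_sub_left_of_mem_uIcc hv
  have h := (convex_uIcc (0 : ℝ) u).norm_image_sub_le_of_norm_hasDerivWithin_le hd hb
    Set.left_mem_uIcc Set.right_mem_uIcc
  simp only [Real.norm_eq_abs, sub_zero, mul_zero, add_zero] at h
  rw [show |M| * u ^ 2 = |M| * |u| * |u| by rw [mul_assoc, ← sq, sq_abs]]
  refine le_trans (le_of_eq ?_) h
  congr 1
  ring

/-- The coefficients are the integrals themselves. -/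
lemma phaseCoef_eq (hP : Phase η M N Φ τ) (t : ℤ) :
    (phaseCoef N Φ t : ℂ) =
      (Real.sqrt N : ℂ) * ∫ x in (-(1 / 2 : ℝ))..(1 / 2), ex (N * Φ x - t * x) := by
  set I := ∫ x in (-(1 / 2 : ℝ))..(1 / 2), ex (N * Φ x - t * x) with hI
  have hconj : conj I = I := by
    rw [hI, ← intervalIntegral.intervalIntegral_conj]
    have h := intervalIntegral.integral_comp_neg (a := (-(1 / 2 : ℝ))) (b := 1 / 2)
      (fun x => ex (N * Φ x - t * x))
    rw [neg_neg] at h
    rw [← h]
    refine intervalIntegral.integral_congr fun x _ => ?_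
    simp only [ex_conj, hP.odd x]
    congr 1
    ring
  rw [phaseCoef, Complex.ofReal_mul, ← hI, Complex.conj_eq_iff_re.1 hconj]

/-- The damped sum is the kernel against the phase function. -/
lemma sum_eq (hP : Phase η M N Φ τ) (A r : ℕ) (hN : A + r ≤ N + 1) (hA : 0 < A) (hr : 0 < r)
    (x : ℝ) :
    ∑ k ∈ range N, (weight A r k : ℂ) * (phaseCoef N Φ (k : ℕ) : ℂ) * ex ((k : ℝ) * x) =
      (Real.sqrt N : ℂ) *
        ∫ u in (-(1 / 2 : ℝ))..(1 / 2), ex (N * Φ (x - u)) * kernel A r u := by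
  have hper : Function.Periodic (fun y => ex (N * Φ y) * kernel A r (x - y)) 1 := by
    intro y
    simp only [hP.periodic y]
    congr 1
    rw [kernel_eq A r N hN hA hr, kernel_eq A r N hN hA hr]
    refine sum_congr rfl fun k _ => ?_
    rw [show (k : ℝ) * (x - y) = (k : ℝ) * (x - (y + 1)) + ((k : ℤ) : ℝ) by push_cast; ring,
      ex_add, ex_int, mul_one]
  have h1 : ∫ u in (-(1 / 2 : ℝ))..(1 / 2), ex (N * Φ (x - u)) * kernel A r u =
      ∫ y in (-(1 / 2 : ℝ))..(1 / 2), ex (N * Φ y) * kernel A r (x - y) := by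
    have h := intervalIntegral.integral_comp_sub_left (a := (-(1 / 2 : ℝ))) (b := 1 / 2)
      (fun y => ex (N * Φ y) * kernel A r (x - y)) x
    simp only [sub_sub_cancel] at h
    rw [h]
    have := hper.intervalIntegral_add_eq (x - 1 / 2) (-(1 / 2))
    rw [show x - 1 / 2 + 1 = x - -(1 / 2) by ring, show -(1 / 2 : ℝ) + 1 = 1 / 2 by norm_num]
      at this
    exact this
  have h2 : ∀ y : ℝ, ex (N * Φ y) * kernel A r (x - y) =
      ∑ k ∈ range N, (weight A r k : ℂ) * ex ((k : ℝ) * x) *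
        ex (N * Φ y - ((k : ℕ) : ℤ) * y) := fun y => by
    rw [kernel_eq A r N hN hA hr, mul_sum]
    refine sum_congr rfl fun k _ => ?_
    rw [mul_assoc (weight A r k : ℂ), mul_left_comm, ← ex_add, ← ex_add]
    congr 2
    push_cast
    ring
  rw [h1]
  simp only [h2]
  have hi : ∀ k ∈ range N, IntervalIntegrable
      (fun y => (weight A r k : ℂ) * ex ((k : ℝ) * x) * ex (N * Φ y - ((k : ℕ) : ℤ) * y))
      volume (-(1 / 2)) (1 / 2) := fun k _ => by
    refine Continuous.intervalIntegrable (continuous_const.mul (continuous_ex.comp ?_)) _ _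
    exact (continuous_const.mul (continuous_iff_continuousAt.2 fun y =>
      (hP.deriv y).continuousAt)).sub (continuous_const.mul continuous_id)
  rw [intervalIntegral.integral_finsetSum hi, mul_sum]
  refine sum_congr rfl fun k _ => ?_
  rw [intervalIntegral.integral_const_mul, phaseCoef_eq hP]
  ring

/-- Comparison with one harmonic. -/
lemma approx (hP : Phase η M N Φ τ) (A r : ℕ) (hN : A + r ≤ N + 1) (hA : 0 < A) (hr : 0 < r)
    (h : ℝ) (h0 : 0 < h) (h2 : h ≤ 1 / 2) (x : ℝ) (j : ℕ) (hj : j < A) (hj' : r ≤ j + 1)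
    (hnear : |(N : ℝ) * τ x - j| ≤ 1) :
    ‖(∫ u in (-(1 / 2 : ℝ))..(1 / 2), ex (N * Φ (x - u)) * kernel A r u) - ex (N * Φ x)‖ ≤
      2 * Real.pi * (N * |M| * h ^ 2 + h) * (2 * h * A) + 1 / (r * h) := by
  have hG : Continuous fun u => ex (N * Φ (x - u)) :=
    (continuous_phase hP).comp (continuous_const.sub continuous_id)
  have hH : Continuous fun u => ex (N * Φ x + -(j : ℝ) * u) :=
    continuous_ex.comp (continuous_const.add (continuous_const.mul continuous_id))
  have e : ∫ u in (-(1 / 2 : ℝ))..(1 / 2), ex (N * Φ x + -(j : ℝ) * u) * kernel A r u =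
      ex (N * Φ x) := by
    simp only [ex_add, mul_assoc]
    rw [intervalIntegral.integral_const_mul, integral_ex_kernel A r N j hN hA hr (by omega),
      weight_eq_one A r j hr hj' hj]
    simp
  have hi1 : IntervalIntegrable (fun u => ex (N * Φ (x - u)) * kernel A r u) volume (-(1 / 2))
      (1 / 2) := (hG.mul (continuous_kernel A r)).intervalIntegrable _ _
  have hi2 : IntervalIntegrable (fun u => ex (N * Φ x + -(j : ℝ) * u) * kernel A r u) volume
      (-(1 / 2)) (1 / 2) := (hH.mul (continuous_kernel A r)).intervalIntegrable _ _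
  rw [← e, ← intervalIntegral.integral_sub hi1 hi2]
  simp only [← sub_mul]
  refine norm_integral_kernel_le A r hr _ (hG.sub hH) h _ h0 h2 (by positivity) (fun u hu => ?_)
    fun u => (norm_sub_le _ _).trans (by rw [ex_norm, ex_norm]; norm_num)
  refine (ex_sub_le _ _).trans (mul_le_mul_of_nonneg_left ?_ (by positivity))
  have hid : (N : ℝ) * Φ (x - u) - (N * Φ x + -(j : ℝ) * u) =
      N * (Φ (x - u) - Φ x + τ x * u) + (-((N : ℝ) * τ x - j)) * u := by ring
  rw [hid]
  refine (abs_add_le _ _).trans (add_le_add ?_ ?_)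
  · rw [abs_mul, Nat.abs_cast, mul_assoc]
    refine mul_le_mul_of_nonneg_left ((taylor_le hP x u).trans ?_) (Nat.cast_nonneg _)
    refine mul_le_mul_of_nonneg_left ?_ (abs_nonneg M)
    rw [← sq_abs u]
    exact pow_le_pow_left₀ (abs_nonneg u) hu 2
  · rw [abs_mul, abs_neg]
    calc |(N : ℝ) * τ x - j| * |u| ≤ 1 * h := mul_le_mul hnear hu (abs_nonneg u) zero_le_one
      _ = h := one_mul h

end Main

/-- Parseval for a real trigonometric polynomial. -/
lemma parseval {N : ℕ} (c : Fin N → ℝ) :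
    ∫ x in (-(1 / 2 : ℝ))..(1 / 2), poly c (ex x) * conj (poly c (ex x)) =
      ((∑ k, c k ^ 2 : ℝ) : ℂ) := by
  have e : ∀ x : ℝ, poly c (ex x) * conj (poly c (ex x)) =
      ∑ k : Fin N, ∑ l : Fin N, ((c k * c l : ℝ) : ℂ) *
        ex ((((k : ℕ) : ℤ) - ((l : ℕ) : ℤ) : ℤ) * x) := fun x => by
    simp only [poly, map_sum, map_mul, map_pow, Complex.conj_ofReal, ← ex_nat_mul, ex_conj,
      sum_mul_sum, Complex.ofReal_mul]
    refine sum_congr rfl fun k _ => sum_congr rfl fun l _ => ?_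
    have h : ex (((((k : ℕ) : ℤ) - ((l : ℕ) : ℤ) : ℤ) : ℝ) * x) =
        ex (((k : ℕ) : ℝ) * x) * ex (((l : ℕ) : ℝ) * -x) := by
      rw [← ex_add]
      congr 1
      push_cast
      ring
    rw [h]
    have h' : ex (((l : ℕ) : ℝ) * -x) = ex (-x) ^ (l : ℕ) := ex_nat_mul _ _
    rw [show -(((l : ℕ) : ℝ) * x) = ((l : ℕ) : ℝ) * -x by ring, h']
    ring
  simp only [e]
  have hc : ∀ n : ℤ, Continuous fun x : ℝ => ex ((n : ℝ) * x) := fun n =>
    continuous_ex.comp (continuous_const.mul continuous_id)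
  have hi1 : ∀ k ∈ (univ : Finset (Fin N)), IntervalIntegrable (fun x => ∑ l : Fin N,
      ((c k * c l : ℝ) : ℂ) * ex ((((k : ℕ) : ℤ) - ((l : ℕ) : ℤ) : ℤ) * x))
      volume (-(1 / 2)) (1 / 2) := fun k _ => Continuous.intervalIntegrable
    (continuous_finsetSum _ fun l _ => continuous_const.mul (hc _)) _ _
  rw [intervalIntegral.integral_finsetSum hi1, Complex.ofReal_sum]
  refine sum_congr rfl fun k _ => ?_
  have hi2 : ∀ l ∈ (univ : Finset (Fin N)), IntervalIntegrable (fun x =>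
      ((c k * c l : ℝ) : ℂ) * ex ((((k : ℕ) : ℤ) - ((l : ℕ) : ℤ) : ℤ) * x))
      volume (-(1 / 2)) (1 / 2) := fun l _ => Continuous.intervalIntegrable
    (continuous_const.mul (hc _)) _ _
  rw [intervalIntegral.integral_finsetSum hi2]
  simp only [intervalIntegral.integral_const_mul, integral_ex]
  rw [sum_eq_single k]
  · simp [sq]
  · intro l _ hl
    rw [if_neg, mul_zero]
    intro h
    exact hl (Fin.ext (by omega))
  · intro h
    exact absurd (mem_univ k) h

lemma energy_ge {N : ℕ} (c : Fin N → ℝ) (L : ℝ) (h : ∀ x, L ≤ ‖poly c (ex x)‖ ^ 2) :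
    L ≤ ∑ k, c k ^ 2 := by
  have hc : Continuous fun x => ‖poly c (ex x)‖ ^ 2 := by
    unfold poly
    exact ((continuous_finsetSum _ fun k _ => continuous_const.mul
      (continuous_ex.pow _)).norm).pow 2
  have hP := parseval c
  simp only [Complex.mul_conj, Complex.normSq_eq_norm_sq] at hP
  rw [intervalIntegral.integral_ofReal] at hP
  rw [← Complex.ofReal_inj.1 hP]
  have := intervalIntegral.integral_mono_on (a := (-(1 / 2 : ℝ))) (b := 1 / 2) (μ := volume)
    (f := fun _ => L) (g := fun x => ‖poly c (ex x)‖ ^ 2) (by norm_num)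
    intervalIntegrable_const (hc.intervalIntegrable _ _) fun x _ => h x
  rw [intervalIntegral.integral_const] at this
  norm_num at this
  exact this

lemma numeric {N M q δ η r A : ℝ} (hN : 0 < N) (hM : 0 ≤ M) (hq : 0 < q) (hδ : 0 < δ)
    (hη : 0 < η) (hA : A ≤ N) (hr : η * N / 4 ≤ r) (hqδ : 8 ≤ η * δ * q)
    (hB : 2 * (2 * Real.pi * (M * q ^ 2 + q) * (2 * q)) ≤ δ * N) :
    2 * Real.pi * (N * M * (q / N) ^ 2 + q / N) * (2 * (q / N) * A) + 1 / (r * (q / N)) ≤ δ := by
  have hX : 0 ≤ 2 * Real.pi * (M * q ^ 2 + q) * (2 * q) := by positivity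
  have e1 : 2 * Real.pi * (N * M * (q / N) ^ 2 + q / N) * (2 * (q / N) * A) =
      2 * Real.pi * (M * q ^ 2 + q) * (2 * q) * (A / N) / N := by
    field_simp
  have e2 : 2 * Real.pi * (M * q ^ 2 + q) * (2 * q) * (A / N) / N ≤ δ / 2 := by
    rw [div_le_iff₀ hN]
    have := mul_le_of_le_one_right hX ((div_le_one hN).2 hA)
    linarith
  have h5 : η * q / 4 ≤ r * (q / N) := by
    have := mul_le_mul_of_nonneg_right hr (div_nonneg hq.le hN.le)
    rw [show η * N / 4 * (q / N) = η * q / 4 by field_simp] at this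
    exact this
  have hpos : 0 < r * (q / N) := lt_of_lt_of_le (by positivity) h5
  have e3 : 1 / (r * (q / N)) ≤ δ / 2 := by
    rw [div_le_iff₀ hpos]
    have := mul_le_mul_of_nonneg_left h5 hδ.le
    linarith
  linarith

lemma exists_ex_eq (z : ℂ) (hz : ‖z‖ = 1) : ∃ x : ℝ, z = ex x := by
  refine ⟨Complex.arg z / (2 * Real.pi), ?_⟩
  have h := Complex.norm_mul_exp_arg_mul_I z
  rw [hz, Complex.ofReal_one, one_mul] at h
  rw [ex_eq, mul_div_cancel₀ _ (by positivity)]
  exact h.symm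

end Trunc

open Vale.Agent.P110.UF.Trunc in
/-- Damped truncation keeps modulus and energy. -/
theorem trunc_stmt : TruncStmt := by
  intro η M δ₀ hη hη2 hδ₀
  set δ : ℝ := min δ₀ 1 / 2 with hδdef
  have hδ : 0 < δ := div_pos (lt_min hδ₀ one_pos) two_pos
  have hδ1 : 2 * δ ≤ δ₀ := by rw [hδdef]; linarith [min_le_left δ₀ 1]
  have hδ2 : δ ≤ 1 / 2 := by rw [hδdef]; linarith [min_le_right δ₀ 1]
  set q : ℝ := 8 / (η * δ) + 1 with hqdef
  have hq0 : 0 < q := by positivity
  have hq : 8 ≤ η * δ * q := by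
    rw [hqdef, mul_add, mul_div_cancel₀ _ (by positivity)]
    nlinarith [mul_pos hη hδ]
  set B : ℝ := 2 * Real.pi * (|M| * q ^ 2 + q) * (2 * q) with hB
  obtain ⟨N₀, hN₀⟩ := exists_nat_ge (max (max (4 / η) (2 * q)) (2 * B / δ))
  refine ⟨N₀ + 1, fun N hN Φ τ hP => ?_⟩
  have hNR : (N₀ : ℝ) ≤ N := by exact_mod_cast (by omega : N₀ ≤ N)
  have hN0 : (0 : ℝ) < N := by exact_mod_cast (by omega : 0 < N)
  have h4 : 4 ≤ η * N := by
    have := ((le_max_left _ _).trans (le_max_left _ _)).trans (hN₀.trans hNR)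
    rw [div_le_iff₀ hη] at this
    linarith
  have h2q : 2 * q ≤ N := ((le_max_right _ _).trans (le_max_left _ _)).trans (hN₀.trans hNR)
  have hBN : 2 * B ≤ δ * N := by
    have := (le_max_right _ _).trans (hN₀.trans hNR)
    rw [div_le_iff₀ hδ] at this
    linarith
  set r := ⌊η * N / 2⌋₊ with hrdef
  have hr_le : (r : ℝ) ≤ η * N / 2 := Nat.floor_le (by positivity)
  have hr_ge : η * N / 2 < r + 1 := Nat.lt_floor_add_one _
  have hr0 : 0 < r := by
    have : (0 : ℝ) < r := by linarith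
    exact_mod_cast this
  have hrN : r ≤ N := by
    have : (r : ℝ) ≤ N := by nlinarith
    exact_mod_cast this
  set A := N + 1 - r with hA
  have hAN : A + r ≤ N + 1 := by omega
  have hA0 : 0 < A := by omega
  have hAle : (A : ℝ) ≤ N := by exact_mod_cast (by omega : A ≤ N)
  set h : ℝ := q / N with hh
  have hh0 : 0 < h := by positivity
  have hh2 : h ≤ 1 / 2 := by rw [hh, div_le_iff₀ hN0]; linarith
  set c : Fin N → ℝ := fun k => weight A r k * phaseCoef N Φ (k : ℕ) with hc
  have key : ∀ x, |‖poly c (ex x)‖ - Real.sqrt N| ≤ δ * Real.sqrt N := by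
    intro x
    have hp : poly c (ex x) =
        ∑ k ∈ range N, (weight A r k : ℂ) * (phaseCoef N Φ (k : ℕ) : ℂ) * ex ((k : ℝ) * x) := by
      rw [poly, ← Fin.sum_univ_eq_sum_range
        (fun k => (weight A r k : ℂ) * (phaseCoef N Φ (k : ℕ) : ℂ) * ex ((k : ℝ) * x)) N]
      refine sum_congr rfl fun k _ => ?_
      simp only [hc, ex_nat_mul, Complex.ofReal_mul]
    rw [hp, sum_eq hP A r hAN hA0 hr0]
    obtain ⟨hlo, hhi⟩ := hP.range x
    set j := ⌊(N : ℝ) * τ x⌋₊ with hjdef
    have hθ0 : 0 ≤ (N : ℝ) * τ x := mul_nonneg hN0.le (hη.le.trans hlo)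
    have hj1 : (j : ℝ) ≤ N * τ x := Nat.floor_le hθ0
    have hj2 : (N : ℝ) * τ x < j + 1 := Nat.lt_floor_add_one _
    have hlo' := mul_le_mul_of_nonneg_left hlo hN0.le
    have hhi' := mul_le_mul_of_nonneg_left hhi hN0.le
    have hjA : j < A := by
      have h' : ((j : ℝ) + r) < N + 1 := by nlinarith
      have : j + r < N + 1 := by exact_mod_cast h'
      omega
    have hjr : r ≤ j + 1 := by
      have : (r : ℝ) ≤ (j : ℝ) + 1 := by nlinarith
      exact_mod_cast this
    have happ := approx hP A r hAN hA0 hr0 h hh0 hh2 x j hjA hjr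
      (abs_le.2 ⟨by linarith, by linarith⟩)
    have herr : 2 * Real.pi * (N * |M| * h ^ 2 + h) * (2 * h * A) + 1 / (r * h) ≤ δ :=
      numeric hN0 (abs_nonneg M) hq0 hδ hη hAle (by linarith) hq (by rw [hB] at hBN; exact hBN)
    have h6 := (abs_norm_sub_norm_le _ _).trans (happ.trans herr)
    rw [ex_norm] at h6
    rw [norm_mul, Complex.norm_real, Real.norm_of_nonneg (Real.sqrt_nonneg _)]
    calc |Real.sqrt N * ‖∫ u in (-(1 / 2 : ℝ))..(1 / 2), ex (N * Φ (x - u)) * kernel A r u‖ -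
          Real.sqrt N|
        = Real.sqrt N *
          |‖∫ u in (-(1 / 2 : ℝ))..(1 / 2), ex (N * Φ (x - u)) * kernel A r u‖ - 1| := by
          rw [← abs_of_nonneg (Real.sqrt_nonneg (N : ℝ)), ← abs_mul,
            abs_of_nonneg (Real.sqrt_nonneg (N : ℝ))]
          congr 1
          ring
      _ ≤ Real.sqrt N * δ := mul_le_mul_of_nonneg_left h6 (Real.sqrt_nonneg _)
      _ = δ * Real.sqrt N := mul_comm _ _
  refine ⟨fun k => weight A r k, fun k => weight_mem A r k, fun z hz => ?_, ?_⟩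
  · obtain ⟨x, rfl⟩ := exists_ex_eq z hz
    exact (key x).trans (mul_le_mul_of_nonneg_right (by linarith) (Real.sqrt_nonneg _))
  · refine le_trans (mul_le_mul_of_nonneg_right (by linarith : 1 - δ₀ ≤ 1 - 2 * δ) hN0.le) ?_
    refine energy_ge c _ fun x => ?_
    have h7 := (abs_le.1 (key x)).1
    have hs : Real.sqrt N ^ 2 = (N : ℝ) := Real.sq_sqrt hN0.le
    have h8 : (1 - δ) * Real.sqrt N ≤ ‖poly c (ex x)‖ := by linarith
    have h9 := pow_le_pow_left₀ (mul_nonneg (by linarith) (Real.sqrt_nonneg _)) h8 2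
    rw [mul_pow, hs] at h9
    nlinarith [mul_nonneg (sq_nonneg δ) hN0.le]

end Vale.Agent.P110.UF
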